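import Vale.Agent.P286EN.NF

/-!
# The normal form in the presence of a bilinear form
-/

set_option linter.all false

namespace Vale.Agent.P286EN

open Matrix Vale.Agent.P286 Vale.Agent.P286E

noncomputable section

attribute [-instance] HahnSeries.powerSeriesAlgebra

variable {A B : Type} [CommRing A] [CommRing B] {N : ℕ}

theorem ent_eq_zero {P : Matrix (Fin N) (Fin N) (Ls A)} (h : Ent (Px A) P) (h1 : OrdM 1 P) :
    P = 0 := Matrix.ext fun i j => px_eq_zero (h i j) (h1 i j)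

theorem ent_eq_cm {P : Matrix (Fin N) (Fin N) (Ls A)} (h : Ent (Px A) P) (h1 : OrdM (-1) P) :
    ∃ c, P = cm c := ⟨of fun i j => (P i j).coeff 0, Matrix.ext fun i j => px_eq_C (h i j) (h1 i j)⟩

theorem dot_gram (S S' F : Matrix (Fin N) (Fin N) (Ls A)) (u v : Fin N → Ls A) :
    (S *ᵥ u) ⬝ᵥ F *ᵥ (S' *ᵥ v) = u ⬝ᵥ (Sᵀ * F * S') *ᵥ v := by
  rw [← mulVec_mulVec, ← mulVec_mulVec, dotProduct_mulVec u, vecMul_transpose]

theorem Ent.dot {R : Subring (Ls A)} {G : Matrix (Fin N) (Fin N) (Ls A)} (h : Ent R G)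
    {u v : Fin N → Ls A} (hu : ∀ i, u i ∈ R) (hv : ∀ i, v i ∈ R) : u ⬝ᵥ G *ᵥ v ∈ R :=
  R.sum_mem (t := Finset.univ) (f := fun i => u i * (G *ᵥ v) i) fun i _ =>
    R.mul_mem (hu i) (h.mulVec hv i)

theorem eq_zero_of_mul_lead {u w : Ls A} {n : ℤ} (hw : Ord n w) (h1 : IsUnit (w.coeff n))
    (h : u * w = 0) : u = 0 := by
  obtain ⟨m, hm⟩ := exists_ord u
  have key : ∀ k : ℕ, Ord (m + k) u := fun k => by
    induction k with
    | zero => exact hm.mono (by omega)
    | succ k ih =>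
      have h2 := coeff_mul_lead ih hw
      rw [h] at h2
      exact (ord_succ ih (h1.mul_left_eq_zero.1 h2.symm)).mono (by omega)
  exact eq_zero_of_ord fun l => (key (l - m).toNat).mono (by omega)

theorem Lead.det {n : ℤ} {S : Matrix (Fin N) (Fin N) (Ls A)} {c : Matrix (Fin N) (Fin N) A}
    (h : Lead n S c) : Ord (N * n) S.det ∧ S.det.coeff (N * n) = c.det := by
  have prod : ∀ (s : Finset (Fin N)) (u : Fin N → Ls A), (∀ i, Ord n (u i)) →
      Ord (s.card * n) (∏ i ∈ s, u i) ∧ (∏ i ∈ s, u i).coeff (s.card * n) =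
        ∏ i ∈ s, (u i).coeff n := by
    intro s u hu
    induction s using Finset.induction_on with
    | empty =>
      rw [Finset.card_empty, Nat.cast_zero, zero_mul]
      exact ⟨Ord.one, HahnSeries.coeff_single_same _ _⟩
    | insert i s hi ih =>
      rw [Finset.card_insert_of_notMem hi, Finset.prod_insert hi, Finset.prod_insert hi,
        show ((s.card + 1 : ℕ) : ℤ) * n = n + s.card * n by push_cast; ring]
      exact ⟨(hu i).mul' ih.1, by rw [coeff_mul_lead (hu i) ih.1, ih.2]⟩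
  have key := fun σ : Equiv.Perm (Fin N) => prod Finset.univ (fun i => S (σ i) i) fun i => h.1 _ _
  simp only [Finset.card_univ, Fintype.card_fin, h.2] at key
  have sg : ∀ σ : Equiv.Perm (Fin N), (((Equiv.Perm.sign σ : ℤˣ) : ℤ) : Ls A) =
      HahnSeries.C (((Equiv.Perm.sign σ : ℤˣ) : ℤ) : A) := fun σ => (map_intCast _ _).symm
  rw [det_apply', det_apply', HahnSeries.coeff_sum]
  refine ⟨Ord.sum _ fun σ _ => ?_, Finset.sum_congr rfl fun σ _ => ?_⟩
  · rw [sg]
    exact (Ord.C _).mul_left (key σ).1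
  · rw [sg, C_mul, HahnSeries.coeff_smul, (key σ).2, smul_eq_mul]

variable [Algebra ℂ A] [Algebra ℂ B] {E : Ell}

theorem unit_two : IsUnit (2 : A) := by
  have h : IsUnit (algebraMap ℂ A 2) := (IsUnit.mk0 (2 : ℂ) two_ne_zero).map _
  rwa [map_ofNat] at h

/-- If `a = 1 + O(t)` preserves a unimodular form, then `det a = 1`. -/
theorem det_eq_one {a : Matrix (Fin N) (Fin N) (Ls A)} {F : Matrix (Fin N) (Fin N) A}
    (ha : Lead 0 a 1) (hF : IsUnit F.det) (h : aᵀ * cm F * a = cm F) : a.det = 1 := by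
  have h1 := congrArg Matrix.det h
  have h2 : IsUnit (cm F).det := by
    rw [cm, ← RingHom.mapMatrix_apply, ← RingHom.map_det]
    exact hF.map _
  rw [det_mul, det_mul, det_transpose] at h1
  have h3 : (a.det - 1) * (a.det + 1) = 0 :=
    h2.mul_left_eq_zero.1 (by linear_combination h1)
  obtain ⟨h4, h5⟩ := ha.det
  rw [mul_zero] at h4 h5
  refine sub_eq_zero.1 (eq_zero_of_mul_lead (h4.add Ord.one) ?_ h3)
  rw [HahnSeries.coeff_add, h5, det_one, HahnSeries.coeff_one, if_pos rfl, one_add_one_eq_two]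
  exact unit_two

theorem ent_split {W : Matrix (Fin N) (Fin N) (Ls A)} (h : Ent (Rg E A) W) :
    ∃ P Q, Ent (Px A) P ∧ Ent (Px A) Q ∧ W = P + ys E A • Q := by
  choose p hp q hq e using fun i j => (reg_iff E).1 (h i j)
  exact ⟨of p, of q, hp, hq, Matrix.ext fun i j => (e i j).trans (by rw [mul_comm]; rfl)⟩

theorem ysep {n : ℤ} {P Q : Matrix (Fin N) (Fin N) (Ls A)} (hP : Ent (Px A) P) (hQ : Ent (Px A) Q)
    (h : OrdM n (P + ys E A • Q)) : OrdM n P ∧ OrdM (n + 3) Q := by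
  have key := fun j => sep (n := n) lead_one (lead_ys (E := E) lead_one) (by norm_num)
    (fun i => hP i j) (fun i => hQ i j) fun i => by
      rw [smul_mulVec, one_mulVec, one_mulVec]
      exact h i j
  exact ⟨fun i j => ((key j).1 i).mono (by omega), fun i j => ((key j).2 i).mono (by omega)⟩

theorem yfree {P Q P' Q' : Matrix (Fin N) (Fin N) (Ls A)} (hP : Ent (Px A) P) (hQ : Ent (Px A) Q)
    (hP' : Ent (Px A) P') (hQ' : Ent (Px A) Q') (h : P + ys E A • Q = P' + ys E A • Q') :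
    P = P' ∧ Q = Q' := by
  have h1 : P - P' + ys E A • (Q - Q') = 0 := by
    rw [smul_sub, sub_add_sub_comm, h, sub_self]
  obtain ⟨h2, h3⟩ := ysep (E := E) (n := 1) (hP.sub hP') (hQ.sub hQ') (h1 ▸ fun _ _ => Ord.zero 1)
  exact ⟨sub_eq_zero.1 (ent_eq_zero (hP.sub hP') h2),
    sub_eq_zero.1 (ent_eq_zero (hQ.sub hQ') (h3.mono (by norm_num)))⟩

/-- The form `F` takes values in `O(E_A - o)` on `M`. -/
def Frm (E : Ell) (F : Matrix (Fin N) (Fin N) A) (M : Submodule A (Fin N → Ls A)) : Prop :=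
  ∀ m ∈ M, ∀ m' ∈ M, E.Reg (m ⬝ᵥ cm F *ᵥ m')

theorem Frm.gram {F : Matrix (Fin N) (Fin N) A} {M : Submodule A (Fin N → Ls A)} (h : Frm E F M)
    {W W' : Matrix (Fin N) (Fin N) (Ls A)} (hW : Col M W) (hW' : Col M W') :
    Ent (Rg E A) (Wᵀ * cm F * W') := fun i j => by
  rw [mul_assoc]
  exact h _ (hW i) _ (hW' j)

theorem Frm.transpose {F : Matrix (Fin N) (Fin N) A} {M : Submodule A (Fin N → Ls A)}
    (h : Frm E F M) : Frm E Fᵀ M := fun m hm m' hm' => by
  rw [← cm_transpose, mulVec_transpose, dotProduct_comm, ← dotProduct_mulVec]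
  exact h m' hm' m hm

theorem gram_one {F X Y : Matrix (Fin N) (Fin N) A} {M : Submodule A (Fin N → Ls A)}
    (hf : Frm E F M) {S S' : Matrix (Fin N) (Fin N) (Ls A)} (lS : Lead (-1) S 1)
    (lS' : Lead (-2) S' 1) (hS : Col M S) (hS' : Col M S')
    (h : ys E A • S = S' * (xs A • 1 - cm X) - S * cm Y) :
    Sᵀ * cm F * S = cm F * (xs A • 1 - cm X) := by
  have l0 : Lead (-1) (Sᵀ * cm F) F :=
    (lS.transpose.mul (lead_cm F)).cast rfl (by rw [transpose_one, one_mul])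
  have l1 : Lead (-2) (Sᵀ * cm F * S) F := (l0.mul lS).cast rfl (mul_one _)
  obtain ⟨P, Q, hP, hQ, e⟩ := ent_split (hf.gram hS hS)
  obtain ⟨P', Q', hP', hQ', e'⟩ := ent_split (hf.gram hS hS')
  rw [ent_eq_zero hQ (ysep hP hQ (e ▸ l1.ord)).2, smul_zero, add_zero] at e
  obtain ⟨D, rfl⟩ := ent_eq_cm hQ' ((ysep hP' hQ' (e' ▸ (l0.mul lS').ord)).2.mono (by norm_num))
  have e1 : 0 + ys E A • P = (P' * (xs A • 1 - cm X) - P * cm Y) +
      ys E A • (cm D * (xs A • 1 - cm X)) := by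
    rw [zero_add, ← e, ← mul_smul_comm, h, mul_sub, ← mul_assoc, ← mul_assoc, e', add_mul,
      smul_mul_assoc]
    abel
  have e2 := (yfree (fun _ _ => (Px A).zero_mem) hP ((hP'.mul (ent_xX X)).sub (hP.mul (ent_cm Y)))
    ((ent_cm D).mul (ent_xX X)) e1).2
  have l2 : Lead (-2) (cm D * (xs A • 1 - cm X)) D :=
    ((lead_cm D).mul ((lead_xs lead_one).sub_ord ((lead_cm X).ord.mono (by norm_num)))).cast rfl
      (mul_one _)
  rw [e, e2] at l1
  rw [e, e2, l1.uniq l2]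

theorem rho_adj {F X : Matrix (Fin N) (Fin N) A} (h : Xᵀ * F = F * X) :
    (rho X)ᵀ * cm F = cm F * rho X := by rw [rho_transpose, rho_inter h.symm]

theorem rhoI_adj {F X : Matrix (Fin N) (Fin N) A} (h : Xᵀ * F = F * X) :
    (rhoI X)ᵀ * cm F = cm F * rhoI X := by rw [rhoI_transpose, rhoI_inter h.symm]

theorem sig_rho (X Y : Matrix (Fin N) (Fin N) A) : sig E X Y * rho X = ys E A • 1 + cm Y := by
  rw [sig, mul_assoc, rhoI_mul_rho, mul_one]

theorem rho_sig {X Y : Matrix (Fin N) (Fin N) A} (h : X * Y = Y * X) :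
    rho X * sig E X Y = ys E A • 1 + cm Y := by
  rw [sig, ← mul_assoc, mul_add, ← rho_inter h.symm, mul_smul_comm, mul_one, add_mul,
    smul_mul_assoc, mul_assoc, rho_mul_rhoI, mul_one]

/-- **Adjoints.** If `F` takes regular values on `a U(X, Y)`, then `X` is self-adjoint, `Y` is
skew-adjoint and `a` preserves `F`. -/
theorem adj {F X Y : Matrix (Fin N) (Fin N) A} {a : Matrix (Fin N) (Fin N) (Ls A)}
    (ha : Lead 0 a 1) (hp : X * Y = Y * X) (hf : Frm E F ((U E X Y).map (act a))) :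
    Xᵀ * F = F * X ∧ Yᵀ * F = -(F * Y) ∧ aᵀ * cm F * a = cm F := by
  rw [U, lat_map] at hf
  have lS : Lead (-1) (a * rho X) 1 := (ha.mul (lead_rho X)).cast rfl (one_mul _)
  have lS' : Lead (-2) (a * sig E X Y) 1 := (ha.mul (lead_sig E X Y)).cast rfl (one_mul _)
  have c1 := col_lat_left (a * rho X) (a * sig E X Y)
  have c2 := col_lat_right (a * rho X) (a * sig E X Y)
  have hy : ys E A • (a * rho X) = a * sig E X Y * (xs A • 1 - cm X) - a * rho X * cm Y := by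
    rw [← mul_smul_comm, y_rho hp, mul_sub, mul_assoc, mul_assoc]
  have g1 := gram_one hf lS lS' c1 c2 hy
  have g2 := congrArg transpose (gram_one hf.transpose lS lS' c1 c2 hy)
  rw [transpose_mul, transpose_mul (a * rho X)ᵀ, transpose_transpose, cm_transpose,
    transpose_transpose, ← mul_assoc (a * rho X)ᵀ, g1, transpose_mul, cm_transpose, transpose_transpose, transpose_sub, cm_transpose,
    transpose_smul, transpose_one, mul_sub, sub_mul, mul_smul_comm, smul_mul_assoc, mul_one,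
    one_mul, sub_right_inj, ← cm_mul, ← cm_mul] at g2
  have hX : Xᵀ * F = F * X := (cm_inj g2).symm
  have hA : aᵀ * cm F * a = cm F := by
    have g3 : a = a * rho X * rhoI X := by rw [mul_assoc, rho_mul_rhoI, mul_one]
    have g4 : (rhoI X)ᵀ * ((a * rho X)ᵀ * cm F * (a * rho X)) * rhoI X = cm F := by
      rw [g1, ← mul_assoc, rhoI_adj hX, ← rho_mul_rho, mul_assoc, mul_assoc (rho X), rho_mul_rhoI,
        mul_one, mul_assoc (cm F), rhoI_mul_rho, mul_one]
    refine Eq.trans ?_ g4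
    rw [← mul_assoc (rhoI X)ᵀ, ← mul_assoc (rhoI X)ᵀ, ← transpose_mul, ← g3, mul_assoc (aᵀ * cm F),
      ← g3]
  refine ⟨hX, ?_, hA⟩
  obtain ⟨P, Q, hP, hQ, e⟩ := ent_split (hf.gram c2 c2)
  have o4 : OrdM (-4) ((a * sig E X Y)ᵀ * cm F * (a * sig E X Y)) :=
    (lS'.transpose.ord.mul (lead_cm F).ord).mul lS'.ord
  obtain ⟨D, rfl⟩ := ent_eq_cm hQ (ysep hP hQ (e ▸ o4)).2
  have e0 : (a * sig E X Y)ᵀ * cm F * (a * sig E X Y) = (sig E X Y)ᵀ * cm F * sig E X Y := by
    rw [transpose_mul, mul_assoc _ aᵀ, mul_assoc, ← mul_assoc (aᵀ * cm F), hA, mul_assoc]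
  have e1 : (sig E X Y)ᵀ * cm F * sig E X Y * (xs A • 1 - cm X) =
      (ys E A • 1 + cm Yᵀ) * cm F * (ys E A • 1 + cm Y) := by
    have h1 : sig E X Y * (rho X * rho X) = rho X * (ys E A • 1 + cm Y) := by
      rw [← mul_assoc, sig_rho, add_mul, mul_add, rho_inter hp.symm, smul_mul_assoc,
        mul_smul_comm, one_mul, mul_one]
    rw [← rho_mul_rho, mul_assoc, h1, ← mul_assoc, mul_assoc _ (cm F), ← rho_adj hX, ← mul_assoc,
      ← transpose_mul, rho_sig hp, transpose_add, transpose_smul, transpose_one, cm_transpose]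
  rw [← e0, e] at e1
  have e2 : P * (xs A • 1 - cm X) + ys E A • (cm D * (xs A • 1 - cm X)) =
      ((ys E A * ys E A) • cm F + cm (Yᵀ * F * Y)) + ys E A • cm (Yᵀ * F + F * Y) := by
    rw [← smul_mul_assoc, ← add_mul, e1]
    simp only [cm_add, cm_mul, mul_add, add_mul, smul_mul_assoc, mul_smul_comm, one_mul, mul_one]
    module
  have e3 := (yfree (hP.mul (ent_xX X)) ((ent_cm D).mul (ent_xX X))
    (((ent_cm F).smul (ys_sq_mem E)).add (ent_cm _)) (ent_cm _) e2).2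
  have e4 : xs A • cm D + cm (-(D * X) - (Yᵀ * F + F * Y)) = 0 := by
    rw [cm_sub, ← e3, cm_neg, cm_mul, mul_sub, mul_smul_comm, mul_one]
    abel
  obtain ⟨e5, e6⟩ := lin_eq_zero e4
  rw [e5, zero_mul, neg_zero, zero_sub, neg_eq_zero] at e6
  exact eq_neg_of_add_eq_zero_left e6

theorem gram_rho_rho {F X : Matrix (Fin N) (Fin N) A} (hX : Xᵀ * F = F * X) :
    (rho X)ᵀ * cm F * rho X = cm F * (xs A • 1 - cm X) := by
  rw [rho_adj hX, mul_assoc, rho_mul_rho]

theorem gram_rho_sig {F X Y : Matrix (Fin N) (Fin N) A} (hp : X * Y = Y * X)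
    (hX : Xᵀ * F = F * X) : (rho X)ᵀ * cm F * sig E X Y = cm F * (ys E A • 1 + cm Y) := by
  rw [rho_adj hX, mul_assoc, rho_sig hp]

theorem sig_adj {F X Y : Matrix (Fin N) (Fin N) A} (hX : Xᵀ * F = F * X)
    (hY : Yᵀ * F = -(F * Y)) :
    (sig E X Y)ᵀ * cm F = cm F * (rhoI X * (ys E A • 1 - cm Y)) := by
  rw [sig, transpose_mul, transpose_add, transpose_smul, transpose_one, cm_transpose, mul_assoc,
    add_mul, ← cm_mul, hY, ← mul_assoc, ← rhoI_adj hX, mul_assoc, mul_sub, cm_neg, cm_mul,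
    smul_mul_assoc, mul_smul_comm, one_mul, mul_one, sub_eq_add_neg]

theorem gram_sig_rho {F X Y : Matrix (Fin N) (Fin N) A} (hp : X * Y = Y * X)
    (hX : Xᵀ * F = F * X) (hY : Yᵀ * F = -(F * Y)) :
    (sig E X Y)ᵀ * cm F * rho X = cm F * (ys E A • 1 - cm Y) := by
  rw [sig_adj hX hY, mul_assoc, mul_assoc, sub_mul, rho_inter hp.symm, smul_mul_assoc, one_mul,
    mul_sub (rhoI X), mul_smul_comm, ← mul_assoc (rhoI X), rhoI_mul_rho, one_mul]

theorem gram_sig_sig {F X Y : Matrix (Fin N) (Fin N) A} (hp : MPt E X Y)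
    (hX : Xᵀ * F = F * X) (hY : Yᵀ * F = -(F * Y)) : (sig E X Y)ᵀ * cm F * sig E X Y =
      cm F * (xs A ^ 2 • 1 + xs A • cm X + cm (X * X + E.a • 1)) := by
  rw [sig_adj hX hY, mul_assoc, mul_assoc, sub_mul, smul_mul_assoc, one_mul, y_sig hp,
    sig_inter E hp.comm.symm rfl, add_sub_cancel_right, ← mul_assoc (rhoI X), rhoI_mul_rho, one_mul]

/-- The form takes regular values on the universal lattice. -/
theorem frm_U {F X Y : Matrix (Fin N) (Fin N) A} (hp : MPt E X Y) (hX : Xᵀ * F = F * X)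
    (hY : Yᵀ * F = -(F * Y)) : Frm E F (U E X Y) := by
  rintro _ ⟨u, v, hu, hv, rfl⟩ _ ⟨u', v', hu', hv', rfl⟩
  have hm : ∀ c : Matrix (Fin N) (Fin N) A, Ent (Rg E A) (cm c) :=
    fun c => (ent_cm c).mono (Px_le_Rg E)
  have hy : Ent (Rg E A) (ys E A • (1 : Matrix (Fin N) (Fin N) (Ls A))) :=
    ent_one.smul (ys_mem_Rg E)
  have l := fun i => Px_le_Rg E (hu i)
  have r := fun i => Px_le_Rg E (hv i)
  have l' := fun i => Px_le_Rg E (hu' i)
  have r' := fun i => Px_le_Rg E (hv' i)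
  rw [mulVec_add, add_dotProduct, dotProduct_add, dotProduct_add, dot_gram, dot_gram, dot_gram,
    dot_gram, gram_rho_rho hX, gram_rho_sig hp.comm hX, gram_sig_rho hp.comm hX hY,
    gram_sig_sig hp hX hY]
  exact (Rg E A).add_mem ((Rg E A).add_mem
    (((hm F).mul ((ent_xX X).mono (Px_le_Rg E))).dot l l') (((hm F).mul (hy.add (hm Y))).dot l r'))
    ((Rg E A).add_mem (((hm F).mul (hy.sub (hm Y))).dot r l')
      (((hm F).mul ((((ent_one.smul ((Px A).pow_mem xs_mem_Px 2)).add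
        ((ent_cm X).smul xs_mem_Px)).add (ent_cm _)).mono (Px_le_Rg E))).dot r r'))

theorem Frm.map {F : Matrix (Fin N) (Fin N) A} {M : Submodule A (Fin N → Ls A)} (h : Frm E F M)
    {a : Matrix (Fin N) (Fin N) (Ls A)} (ha : aᵀ * cm F * a = cm F) : Frm E F (M.map (act a)) := by
  rintro _ ⟨m, hm, rfl⟩ _ ⟨m', hm', rfl⟩
  rw [act_apply, act_apply, dot_gram, ha]
  exact h m hm m' hm'

/-- **Normal form for bundles with a unimodular form.** -/
theorem nf_frm {F : Matrix (Fin N) (Fin N) A} (hF : IsUnit F.det) {M : Submodule A (Fin N → Ls A)}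
    (hM : Stab (Rg E A) M) (hc : Cpl M) (hf : Frm E F M) :
    ∃ (a : Matrix (Fin N) (Fin N) (Ls A)) (X Y : Matrix (Fin N) (Fin N) A),
      Lead 0 a 1 ∧ MPt E X Y ∧ M = (U E X Y).map (act a) ∧ Xᵀ * F = F * X ∧ Yᵀ * F = -(F * Y) ∧
      aᵀ * cm F * a = cm F ∧ a.det = 1 := by
  obtain ⟨a, X, Y, ha, hp, rfl⟩ := nf hM hc
  obtain ⟨h1, h2, h3⟩ := adj ha hp.comm hf
  exact ⟨a, X, Y, ha, hp, rfl, h1, h2, h3, det_eq_one ha hF h3⟩

end

end Vale.Agent.P286EN
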