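import Vale.Agent.P286EN.Adj
import Vale.Agent.P286EF.Ob
import Vale.Agent.P286E.QS

/-!
# The normal form for `SL_2` and `SO_3`
-/

set_option linter.all false

namespace Vale.Agent.P286EN

open Matrix Vale.Agent.P286 Vale.Agent.P286E

noncomputable section

attribute [-instance] HahnSeries.powerSeriesAlgebra

section ring
variable {R : Type} [CommRing R]

/-- The combination of the Pauli matrices. -/
def pm (ι : ℂ →+* R) (ξ : Fin 3 → R) : Matrix (Fin 2) (Fin 2) R := ∑ i, ξ i • (b2 i).map ι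

theorem pm_eq (ι : ℂ →+* R) (ξ : Fin 3 → R) :
    pm ι ξ = !![ξ 2, ξ 0 - ι Complex.I * ξ 1; ξ 0 + ι Complex.I * ξ 1, -ξ 2] := by
  rw [pm, Fin.sum_univ_three]
  ext a b
  fin_cases a <;> fin_cases b <;> simp [b2] <;> ring

theorem pm_mul (ι : ℂ →+* R) (ξ η : Fin 3 → R) :
    pm ι ξ * pm ι η = (ξ ⬝ᵥ η) • 1 + ι Complex.I • pm ι (ξ ⨯₃ η) := by
  have hI := iota_I ι
  rw [pm_eq, pm_eq, pm_eq, cross_apply]
  ext a b
  fin_cases a <;> fin_cases b <;>
    simp [Matrix.mul_apply, Fin.sum_univ_two, dotProduct, Fin.sum_univ_three]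
  · linear_combination (-(ξ 1 * η 1)) * hI
  · linear_combination (ξ 2 * η 0 - ξ 0 * η 2) * hI
  · linear_combination (ξ 0 * η 2 - ξ 2 * η 0) * hI
  · linear_combination (-(ξ 1 * η 1)) * hI

theorem pm_sq (ι : ℂ →+* R) (ξ : Fin 3 → R) : pm ι ξ * pm ι ξ = (ξ ⬝ᵥ ξ) • 1 := by
  rw [pm_mul, cross_self, pm_eq]
  ext a b
  fin_cases a <;> fin_cases b <;> simp

/-- The combination of the infinitesimal rotations. -/
def rm (ι : ℂ →+* R) (ξ : Fin 3 → R) : Matrix (Fin 3) (Fin 3) R := ∑ i, ξ i • (b3 i).map ι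

theorem rm_eq (ι : ℂ →+* R) (ξ : Fin 3 → R) :
    rm ι ξ = ι Complex.I • !![0, -ξ 2, ξ 1; ξ 2, 0, -ξ 0; -ξ 1, ξ 0, 0] := by
  rw [rm, Fin.sum_univ_three]
  ext a b
  fin_cases a <;> fin_cases b <;> simp [b3] <;> ring

theorem rm_mulVec (ι : ℂ →+* R) (ξ m : Fin 3 → R) : rm ι ξ *ᵥ m = ι Complex.I • (ξ ⨯₃ m) := by
  rw [rm_eq, cross_apply]
  ext a
  fin_cases a <;> simp [mulVec, dotProduct, Fin.sum_univ_three] <;> ring

theorem rm_sq (ι : ℂ →+* R) (ξ : Fin 3 → R) :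
    rm ι ξ * rm ι ξ = (ξ ⬝ᵥ ξ) • 1 - vecMulVec ξ ξ := by
  have hI := iota_I ι
  rw [rm_eq, smul_mul_smul_comm, hI]
  ext a b
  fin_cases a <;> fin_cases b <;>
    simp [Matrix.mul_apply, dotProduct, Fin.sum_univ_three, vecMulVec_apply] <;> ring

theorem cross_mulVec (g : Matrix (Fin 3) (Fin 3) R) (u v : Fin 3 → R) :
    (g *ᵥ u) ⨯₃ (g *ᵥ v) = g.adjugateᵀ *ᵥ (u ⨯₃ v) := by
  rw [cross_apply, cross_apply, adjugate_fin_three]
  ext a
  fin_cases a <;> simp [mulVec, dotProduct, Fin.sum_univ_three] <;> ring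

theorem cross_mem {S : Subring R} {u v : Fin 3 → R} (hu : ∀ i, u i ∈ S) (hv : ∀ i, v i ∈ S)
    (i : Fin 3) : (u ⨯₃ v) i ∈ S := by
  rw [cross_apply]
  fin_cases i <;> exact S.sub_mem (S.mul_mem (hu _) (hv _)) (S.mul_mem (hu _) (hv _))

end ring

variable {A B : Type} [CommRing A] [CommRing B] {N : ℕ}

theorem evx_inj : Function.Injective (evx A) := fun p q h =>
  Polynomial.ext fun n => by rw [← evx_coeff_two, h, evx_coeff_two]

theorem det_xX (X : Matrix (Fin N) (Fin N) A) : (xs A • 1 - cm X).det = evx A X.charpoly := by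
  rw [charpoly, RingHom.map_det]
  congr 1
  ext1 i j
  rw [RingHom.mapMatrix_apply, map_apply, charmatrix_apply, map_sub, evx_C, Matrix.sub_apply,
    Matrix.smul_apply, diagonal_apply, one_apply, cm_apply]
  split_ifs
  · rw [evx_X, smul_eq_mul, mul_one]
  · rw [map_zero, smul_zero]

variable [Algebra ℂ A] [Algebra ℂ B] {E : Ell}

theorem det_rho_sq (X : Matrix (Fin N) (Fin N) A) :
    (rho X).det * (rho X).det = evx A X.charpoly := by rw [← det_mul, rho_mul_rho, det_xX]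

theorem ysep1 {n : ℤ} {p q : Ls A} (hp : p ∈ Px A) (hq : q ∈ Px A) (h : Ord n (p + ys E A * q)) :
    Ord n p ∧ Ord (n + 3) q := by
  have h1 := ysep (E := E) (N := 1) (P := of fun _ _ => p) (Q := of fun _ _ => q) (fun _ _ => hp)
    (fun _ _ => hq) fun _ _ => h
  exact ⟨h1.1 0 0, h1.2 0 0⟩

theorem yfree1 {p q : Ls A} (hp : p ∈ Px A) (hq : q ∈ Px A) (h : p + ys E A * q = 0) :
    p = 0 ∧ q = 0 := by
  obtain ⟨h1, h2⟩ := ysep1 (n := 1) hp hq (h ▸ Ord.zero 1)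
  exact ⟨px_eq_zero hp h1, px_eq_zero hq (h2.mono (by norm_num))⟩

theorem two_mul_eq_zero {R : Type} [CommRing R] (ι : ℂ →+* R) {z : R} (h : 2 * z = 0) : z = 0 := by
  linear_combination (-z) * iota_half ι + ι 2⁻¹ * h

/-- The cubic over `A`. -/
def fp (E : Ell) (A : Type) [CommRing A] [Algebra ℂ A] : Polynomial A :=
  Polynomial.X ^ 3 + Polynomial.C (algebraMap ℂ A E.a) * Polynomial.X +
    Polynomial.C (algebraMap ℂ A E.b)

theorem evx_fp : evx A (fp E A) = ys E A * ys E A := by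
  rw [ys_sq, fp, map_add, map_add, map_mul, map_pow, evx_X, evx_C, evx_C, cc, cc]

/-- A regular function `y + O(t⁻²)` whose square lies in `A[x]` is `y`. -/
theorem eq_ys {d : Ls A} (h : E.Reg d) (h1 : Ord (-3) d) (h2 : d.coeff (-3) = 1)
    (h3 : d * d ∈ Px A) : d = ys E A := by
  obtain ⟨p, hp, q, hq, rfl⟩ := (reg_iff E).1 h
  rw [mul_comm q] at h1 h2 h3 ⊢
  have h4 := px_eq_C hq ((ysep1 hp hq h1).2.mono (by norm_num))
  rw [h4, mul_comm, C_mul, HahnSeries.coeff_add, px_odd hp (by norm_num), zero_add,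
    HahnSeries.coeff_smul, ys_coeff, smul_eq_mul, mul_one] at h2
  rw [h2, map_one] at h4
  rw [h4, mul_one] at h3 ⊢
  have h5 := (yfree1 (E := E) ((Px A).sub_mem ((Px A).add_mem ((Px A).mul_mem hp hp)
    (ys_sq_mem E)) h3) ((Px A).add_mem hp hp) (by ring)).2
  rw [two_mul_eq_zero (io A) ((two_mul p).trans h5), zero_add]

theorem det_rho_eq {X : Matrix (Fin 3) (Fin 3) A} (h : E.Reg (rho X).det) :
    (rho X).det = ys E A :=
  eq_ys h (lead_rho X).det.1 ((lead_rho X).det.2.trans det_one) ⟨_, (det_rho_sq X).symm⟩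

theorem charpoly_eq {X : Matrix (Fin 3) (Fin 3) A} (h : (rho X).det = ys E A) :
    X.charpoly = fp E A := evx_inj (by rw [← det_rho_sq, h, evx_fp])

theorem det_rho_of {X : Matrix (Fin 3) (Fin 3) A} (h : X.charpoly = fp E A) :
    (rho X).det = ys E A := by
  have h1 : ((rho X).det - ys E A) * ((rho X).det + ys E A) = 0 := by
    have h2 := det_rho_sq X
    rw [h, evx_fp] at h2
    linear_combination h2
  have h4 : Ord (-3) (rho X).det := (lead_rho X).det.1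
  refine sub_eq_zero.1 (eq_zero_of_mul_lead (h4.add (ord_ys E)) ?_ h1)
  have h3 : (rho X).det.coeff (-3) = 1 := (lead_rho X).det.2.trans det_one
  rw [HahnSeries.coeff_add, h3, ys_coeff, one_add_one_eq_two]
  exact unit_two

theorem det_scalar {X : Matrix (Fin 3) (Fin 3) A} (h : X.charpoly = fp E A) (z : A) :
    (z • 1 - X).det = z ^ 3 + algebraMap ℂ A E.a * z + algebraMap ℂ A E.b := by
  have h1 := eval_charpoly X z
  rw [h, fp, scalar_apply, ← smul_one_eq_diagonal] at h1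
  simpa using h1.symm

theorem mpt_of_charpoly {X : Matrix (Fin 3) (Fin 3) A} (h : X.charpoly = fp E A) : MPt E X 0 := by
  refine ⟨by rw [mul_zero, zero_mul], ?_⟩
  have h1 := aeval_self_charpoly X
  rw [h, fp, map_add, map_add, map_mul, map_pow, Polynomial.aeval_X, Polynomial.aeval_C,
    Polynomial.aeval_C, ← Algebra.smul_def, algebraMap_smul,
    Algebra.algebraMap_eq_smul_one (R := A), algebraMap_smul] at h1
  rw [mul_zero, h1]

theorem sig_zero (X : Matrix (Fin N) (Fin N) A) : sig E X 0 = ys E A • rhoI X := by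
  rw [sig, cm_zero, add_zero, smul_mul_assoc, one_mul]

theorem adj_eq_of_mul {R : Type} [CommRing R] {g h : Matrix (Fin N) (Fin N) R} (e : g * h = 1) :
    g.adjugate = g.det • h := by
  rw [← mul_one g.adjugate, ← e, ← mul_assoc, adjugate_mul, smul_mul_assoc, one_mul]

/-- The lattice `U(X, 0)` is closed under the cross product. -/
theorem cross_U {X : Matrix (Fin 3) (Fin 3) A} (hs : Xᵀ = X) (h : X.charpoly = fp E A)
    {m m' : Fin 3 → Ls A} (hm : m ∈ U E X 0) (hm' : m' ∈ U E X 0) : m ⨯₃ m' ∈ U E X 0 := by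
  have hd := det_rho_of h
  have hz : ∀ i, (0 : Fin 3 → Ls A) i ∈ Px A := fun _ => (Px A).zero_mem
  have hi : ys E A * (rhoI X).det = 1 := by rw [← hd, ← det_mul, rho_mul_rhoI, det_one]
  have a1 : (rho X).adjugateᵀ = sig E X 0 := by
    rw [adj_eq_of_mul (rho_mul_rhoI X), hd, transpose_smul, rhoI_transpose, hs, sig_zero]
  have a2 : (rhoI X).adjugateᵀ = (rhoI X).det • rho X := by
    rw [adj_eq_of_mul (rhoI_mul_rho X), transpose_smul, rho_transpose, hs]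
  have e1 : ∀ u : Fin 3 → Ls A, rho X *ᵥ u = rhoI X *ᵥ ((xs A • 1 - cm X) *ᵥ u) := fun u => by
    rw [mulVec_mulVec, ← rho_mul_rho, ← mul_assoc, rhoI_mul_rho, one_mul]
  have k1 : ∀ u v : Fin 3 → Ls A, (∀ i, u i ∈ Px A) → (∀ i, v i ∈ Px A) →
      (rho X *ᵥ u) ⨯₃ (sig E X 0 *ᵥ v) ∈ U E X 0 := fun u v hu hv =>
    ⟨_, 0, cross_mem ((ent_xX X).mulVec hu) hv, hz, by
      rw [mulVec_zero, add_zero, e1 u, sig_zero, smul_mulVec, map_smul, cross_mulVec, a2,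
        smul_mulVec, smul_smul, hi, one_smul]⟩
  obtain ⟨u, v, hu, hv, rfl⟩ := hm
  obtain ⟨u', v', hu', hv', rfl⟩ := hm'
  rw [map_add, map_add, LinearMap.add_apply, LinearMap.add_apply]
  refine Submodule.add_mem _ (Submodule.add_mem _ ⟨0, _, hz, cross_mem hu hu', ?_⟩ ?_)
    (Submodule.add_mem _ (k1 u v' hu hv') ⟨0, _, hz, (ent_xX X).mulVec (cross_mem hv hv'), ?_⟩)
  · rw [mulVec_zero, zero_add, cross_mulVec, a1]
  · rw [← cross_anticomm]
    exact Submodule.neg_mem _ (k1 u' v hu' hv)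
  · rw [mulVec_zero, zero_add, sig_zero, smul_mulVec, smul_mulVec, smul_mulVec, map_smul, map_smul,
      LinearMap.smul_apply, cross_mulVec, a2, smul_mulVec, smul_smul, smul_smul, mul_assoc, hi,
      mul_one, ← e1]

theorem vol_of_cross {M : Submodule A (Fin 3 → Ls A)} (hf : Frm E 1 M)
    (hc : ∀ m ∈ M, ∀ m' ∈ M, m ⨯₃ m' ∈ M) (m : Fin 3 → Fin 3 → Ls A) (hm : ∀ i, m i ∈ M) :
    E.Reg (of m).det := by
  have h1 := hf _ (hm 0) _ (hc _ (hm 1) _ (hm 2))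
  rw [cm_one, one_mulVec, triple_product_eq_det] at h1
  have h2 : (![m 0, m 1, m 2] : Fin 3 → Fin 3 → Ls A) = m := by
    funext i
    fin_cases i <;> rfl
  rwa [h2] at h1

theorem vol_two {M : Submodule A (Fin 2 → Ls A)} (hf : Frm E (F2.map (algebraMap ℂ A)) M)
    (m : Fin 2 → Fin 2 → Ls A) (hm : ∀ i, m i ∈ M) : E.Reg (of m).det := by
  have h1 : (of m).det = m 0 ⬝ᵥ cm (F2.map (algebraMap ℂ A)) *ᵥ m 1 := by
    simp [det_fin_two, F2, mulVec, dotProduct, Fin.sum_univ_two, cm_apply]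
    ring
  rw [h1]
  exact hf _ (hm 0) _ (hm 1)

theorem reg_det_rho {a : Matrix (Fin N) (Fin N) (Ls A)} (ha : a.det = 1)
    {X Y : Matrix (Fin N) (Fin N) A} (h : ∀ m : Fin N → Fin N → Ls A,
      (∀ i, m i ∈ (U E X Y).map (act a)) → E.Reg (of m).det) : E.Reg (rho X).det := by
  have h1 := h (fun j i => (a * rho X) i j) fun j => ⟨_, col_lat_left _ _ j, rfl⟩
  change E.Reg (a * rho X)ᵀ.det at h1
  rwa [det_transpose, det_mul, ha, one_mul] at h1

theorem ht_SL2 (Y : Fin 3 → A) : SL2.ht Y = pm (algebraMap ℂ A) Y := rfl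

theorem hat_SL2 (ξ : Fin 3 → Ls A) : SL2.hat ξ = pm (io A) ξ := rfl

theorem ht_SO3 (Y : Fin 3 → A) : SO3.ht Y = rm (algebraMap ℂ A) Y := rfl

theorem hat_SO3 (ξ : Fin 3 → Ls A) : SO3.hat ξ = rm (io A) ξ := rfl

theorem cm_ht (G : Grp) (Y : Fin 3 → A) : cm (G.ht Y) = G.hat fun i => HahnSeries.C (Y i) := by
  rw [Grp.ht, Grp.hat, cm_eq, map_sum]
  exact Finset.sum_congr rfl fun i _ => cm_smul _ _

theorem ht_skew {G : Grp} (hG : G.Ok) (Y : Fin 3 → A) :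
    (G.ht Y)ᵀ * G.F.map (algebraMap ℂ A) = -(G.F.map (algebraMap ℂ A) * G.ht Y) := by
  refine cm_inj ?_
  rw [cm_neg, cm_mul, cm_mul, ← cm_transpose, cm_ht]
  exact eq_neg_of_add_eq_zero_left (hG.hat_lie _)

theorem exists_ht {G : Grp} (hG : G.Ok) {Y : Matrix (Fin G.N) (Fin G.N) A}
    (h : Yᵀ * G.F.map (algebraMap ℂ A) = -(G.F.map (algebraMap ℂ A) * Y)) : ∃ Z, Y = G.ht Z :=
  ⟨_, hG.span A (algebraMap ℂ A) Y (by rw [h, neg_add_cancel])⟩

theorem ht_inj {G : Grp} (hG : G.Ok) {Y Z : Fin 3 → A} (h : G.ht Y = G.ht Z) : Y = Z := by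
  have h1 := congrArg cm h
  rw [cm_ht, cm_ht] at h1
  exact funext fun i => HahnSeries.C_injective (congrFun (hG.hat_inj h1) i)

theorem det_F {G : Grp} (hG : G.Ok) : IsUnit (G.F.map (algebraMap ℂ A)).det := by
  rw [← RingHom.mapMatrix_apply, ← RingHom.map_det, hG.det, map_one]
  exact isUnit_one

theorem sl2_scalar {X : Matrix (Fin 2) (Fin 2) A}
    (h : Xᵀ * F2.map (algebraMap ℂ A) = F2.map (algebraMap ℂ A) * X) : X = X 0 0 • 1 := by
  have h1 := congrFun (congrFun h 0) 0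
  have h2 := congrFun (congrFun h 0) 1
  have h3 := congrFun (congrFun h 1) 1
  simp [F2, Matrix.mul_apply, Fin.sum_univ_two] at h1 h2 h3
  ext a b
  fin_cases a <;> fin_cases b <;> simp
  · exact two_mul_eq_zero (algebraMap ℂ A) (by linear_combination h3)
  · exact two_mul_eq_zero (algebraMap ℂ A) (by linear_combination -h1)
  · exact h2.symm

/-- The value of the cubic. -/
def fv (E : Ell) (p : A) : A := p ^ 3 + algebraMap ℂ A E.a * p + algebraMap ℂ A E.b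

theorem f_scalar (p : A) : (p • (1 : Matrix (Fin N) (Fin N) A)) ^ 3 + E.a • p • 1 + E.b • 1 =
    fv E p • (1 : Matrix (Fin N) (Fin N) A) := by
  rw [smul_pow, one_pow, fv, add_smul, add_smul, mul_smul, algebraMap_smul, algebraMap_smul]

theorem mpt_scalar {p : A} {Y : Matrix (Fin N) (Fin N) A} (h : Y * Y = fv E p • 1) :
    MPt E (p • 1) Y :=
  ⟨by rw [smul_mul_assoc, mul_smul_comm, one_mul, mul_one], by rw [f_scalar, h]⟩

/-- The element of `sl_2(A)` with the coordinates `Y`; this is `SL2.ht Y`. -/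
abbrev h2 (Y : Fin 3 → A) : Matrix (Fin 2) (Fin 2) A := pm (algebraMap ℂ A) Y

/-- The element of `so_3(A)` with the coordinates `Y`; this is `SO3.ht Y`. -/
abbrev h3 (Y : Fin 3 → A) : Matrix (Fin 3) (Fin 3) A := rm (algebraMap ℂ A) Y

theorem mpt_SL2 {p : A} {Y : Fin 3 → A} (h : Y ⬝ᵥ Y = fv E p) : MPt E (p • 1) (h2 Y) :=
  mpt_scalar (by rw [pm_sq, h])

theorem frm_SL2 {p : A} {Y : Fin 3 → A} (h : Y ⬝ᵥ Y = fv E p) :
    Frm E (F2.map (algebraMap ℂ A)) (U E (p • 1) (h2 Y)) :=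
  frm_U (mpt_SL2 h) (by rw [transpose_smul, transpose_one, smul_mul_assoc, mul_smul_comm, one_mul,
    mul_one]) (ht_skew ok_SL2 Y)

/-- **Normal form for `SL_2`.** -/
theorem nf_SL2 {M : Submodule A (Fin 2 → Ls A)} (hM : Stab (Rg E A) M) (hc : Cpl M)
    (hf : Frm E (F2.map (algebraMap ℂ A)) M) :
    ∃ (a : Matrix (Fin 2) (Fin 2) (Ls A)) (p : A) (Y : Fin 3 → A), Lead 0 a 1 ∧ InG SL2 a ∧
      Y ⬝ᵥ Y = fv E p ∧ M = (U E (p • 1) (h2 Y)).map (act a) := by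
  obtain ⟨a, X, Y, ha, hp, rfl, h1, h6, h3, h4⟩ := nf_frm (N := 2) (det_F ok_SL2) hM hc hf
  obtain ⟨Z, hZ⟩ : ∃ Z, Y = h2 Z := exists_ht ok_SL2 h6
  obtain ⟨p, hX⟩ : ∃ p : A, X = p • 1 := ⟨_, sl2_scalar h1⟩
  subst hZ hX
  refine ⟨a, p, Z, ha, ⟨h4, h3⟩, ?_, rfl⟩
  have h5 := hp.eqn
  rw [f_scalar, pm_sq] at h5
  simpa using congrFun (congrFun h5 0) 0

theorem F_SO3 : SO3.F.map (algebraMap ℂ A) = (1 : Matrix (Fin 3) (Fin 3) A) :=
  Matrix.map_one (algebraMap ℂ A) (map_zero _) (map_one _)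

theorem inG_SO3 {a : Matrix (Fin 3) (Fin 3) (Ls A)} (h : a.det = 1) (h' : aᵀ * a = 1) :
    InG SO3 a := ⟨h, by
  change aᵀ * cst A (1 : Matrix (Fin 3) (Fin 3) ℂ) * a = cst A (1 : Matrix (Fin 3) (Fin 3) ℂ)
  rw [cst_one, mul_one, h']⟩

theorem frm_SO3 {M : Submodule A (Fin 3 → Ls A)} :
    Frm E 1 M ↔ ∀ m ∈ M, ∀ m' ∈ M, E.Reg (m ⬝ᵥ cst A (1 : Matrix (Fin 3) (Fin 3) ℂ) *ᵥ m') := by
  rw [cst_one, Frm, cm_one]

theorem h3_skew (Y : Fin 3 → A) : (h3 Y)ᵀ = -h3 Y := by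
  rw [h3, rm_eq]
  ext a b
  fin_cases a <;> fin_cases b <;> simp

theorem exists_h3 {Y : Matrix (Fin 3) (Fin 3) A} (h : Yᵀ = -Y) : ∃ Z, Y = h3 Z :=
  ⟨_, span3 A (algebraMap ℂ A) Y (by
    rw [Matrix.map_one _ (map_zero _) (map_one _), mul_one, one_mul, h, neg_add_cancel])⟩

/-- **Normal form for a lattice of rank three with the standard form.** -/
theorem nf_three {M : Submodule A (Fin 3 → Ls A)} (hM : Stab (Rg E A) M) (hc : Cpl M)
    (hf : Frm E 1 M) :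
    ∃ (a : Matrix (Fin 3) (Fin 3) (Ls A)) (X : Matrix (Fin 3) (Fin 3) A) (Y : Fin 3 → A),
      Lead 0 a 1 ∧ InG SO3 a ∧ Xᵀ = X ∧ MPt E X (h3 Y) ∧ M = (U E X (h3 Y)).map (act a) := by
  obtain ⟨a, X, Y, ha, hp, rfl, h1, h6, h5, h4⟩ :=
    nf_frm (by rw [det_one]; exact isUnit_one) hM hc hf
  rw [mul_one, one_mul] at h1 h6
  rw [cm_one, mul_one] at h5
  obtain ⟨Z, rfl⟩ := exists_h3 h6
  exact ⟨a, X, Z, ha, inG_SO3 h4 h5, h1, hp, rfl⟩

theorem frm_odd {X : Matrix (Fin 3) (Fin 3) A} (hs : Xᵀ = X) (h : X.charpoly = fp E A) :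
    Frm E 1 (U E X 0) :=
  frm_U (mpt_of_charpoly h) (by rw [hs, mul_one, one_mul])
    (by rw [transpose_zero, zero_mul, mul_zero, neg_zero])

theorem hat_mem_odd {X : Matrix (Fin 3) (Fin 3) A} (hs : Xᵀ = X) (h : X.charpoly = fp E A)
    {ξ m : Fin 3 → Ls A} (hξ : ξ ∈ U E X 0) (hm : m ∈ U E X 0) : rm (io A) ξ *ᵥ m ∈ U E X 0 := by
  rw [rm_mulVec]
  exact stab_lat _ _ _ (C_mem_Px _) _ (cross_U hs h hξ hm)

end

end Vale.Agent.P286EN
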