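import Vale.Agent.P286EN.Univ

/-!
# The normal form of a bundle without cohomology
-/

set_option linter.all false

namespace Vale.Agent.P286EN

open Matrix Vale.Agent.P286 Vale.Agent.P286E

noncomputable section

attribute [-instance] HahnSeries.powerSeriesAlgebra

variable {A B : Type} [CommRing A] [CommRing B] {N : ℕ}

theorem lead_step {n : ℤ} {W S : Matrix (Fin N) (Fin N) (Ls A)} (hW : OrdM n W)
    (hS : Lead n S 1) : ∃ c, OrdM (n + 1) (W - S * cm c) :=
  ⟨_, hW.lead.sub ((hS.mul (lead_cm _)).cast (add_zero n) (Matrix.one_mul _))⟩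

theorem lead_xs {n : ℤ} {S : Matrix (Fin N) (Fin N) (Ls A)} {c : Matrix (Fin N) (Fin N) A}
    (hS : Lead n S c) : Lead (-2 + n) (xs A • S) c := Lead.smul ord_xs xs_coeff hS

theorem lin_eq_zero {P Q : Matrix (Fin N) (Fin N) A} (h : xs A • cm P + cm Q = 0) :
    P = 0 ∧ Q = 0 := by
  have h1 : Lead (-2) (xs A • cm P + cm Q) P :=
    (lead_xs (lead_cm P)).add_ord ((lead_cm Q).ord.mono (by norm_num))
  have h2 : P = 0 := h1.uniq (h ▸ ⟨fun _ _ => Ord.zero _, fun _ _ => rfl⟩)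
  rw [h2, cm_zero, smul_zero, zero_add, ← cm_zero] at h
  exact ⟨h2, cm_inj h⟩

theorem quad_eq_zero {P Q R : Matrix (Fin N) (Fin N) A}
    (h : xs A • xs A • cm P + (xs A • cm Q + cm R) = 0) : P = 0 ∧ Q = 0 ∧ R = 0 := by
  have h1 : Lead (-4) (xs A • xs A • cm P + (xs A • cm Q + cm R)) P :=
    (lead_xs (lead_xs (lead_cm P))).add_ord (((lead_xs (lead_cm Q)).ord.mono (by norm_num)).add
      ((lead_cm R).ord.mono (by norm_num)))
  have h2 : P = 0 := h1.uniq (h ▸ ⟨fun _ _ => Ord.zero _, fun _ _ => rfl⟩)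
  rw [h2, cm_zero, smul_zero, smul_zero, zero_add] at h
  exact ⟨h2, lin_eq_zero h⟩

theorem ent_lin (P Q : Matrix (Fin N) (Fin N) A) : Ent (Px A) (xs A • cm P + cm Q) :=
  ((ent_cm P).smul xs_mem_Px).add (ent_cm Q)

theorem ent_quad (P Q R : Matrix (Fin N) (Fin N) A) :
    Ent (Px A) (xs A • xs A • cm P + (xs A • cm Q + cm R)) :=
  (((ent_cm P).smul xs_mem_Px).smul xs_mem_Px).add (ent_lin Q R)

variable [Algebra ℂ A] [Algebra ℂ B] {E : Ell}

theorem lead_ys {n : ℤ} {S : Matrix (Fin N) (Fin N) (Ls A)} {c : Matrix (Fin N) (Fin N) A}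
    (hS : Lead n S c) : Lead (-3 + n) (ys E A • S) c := Lead.smul (ord_ys E) (ys_coeff E) hS

/-- The action of `y` on the first generator. -/
theorem nf_one {M : Submodule A (Fin N → Ls A)} (hM : Stab (Rg E A) M) (hc : Cpl M) :
    ∃ (S S' : Matrix (Fin N) (Fin N) (Ls A)) (X Y : Matrix (Fin N) (Fin N) A),
      Lead (-1) S 1 ∧ Lead (-2) S' 1 ∧ Col M S ∧ Col M S' ∧
      ys E A • S = S' * (xs A • 1 - cm X) - S * cm Y := by
  obtain ⟨S, hS, lS⟩ := hc.exists_lead (n := -1) (by norm_num)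
  obtain ⟨S', hS', lS'⟩ := hc.exists_lead (n := -2) (by norm_num)
  have hx := Px_le_Rg E (xs_mem_Px (A := A))
  have hm : ∀ c : Matrix (Fin N) (Fin N) A, Ent (Rg E A) (cm c) :=
    fun c => (ent_cm c).mono (Px_le_Rg E)
  have h4 : OrdM (-3) (ys E A • S - xs A • S') := (lead_ys lS).sub (lead_xs lS')
  obtain ⟨c3, h3⟩ := lead_step h4 (lead_xs lS)
  obtain ⟨c2, h2⟩ := lead_step h3 lS'
  obtain ⟨c1, h1⟩ := lead_step h2 lS
  have h0 := hc.kill (((((hS.smul hM (ys_mem_Rg E)).sub (hS'.smul hM hx)).sub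
    ((hS.smul hM hx).mul hM (hm c3))).sub (hS'.mul hM (hm c2))).sub (hS.mul hM (hm c1))) h1
  refine ⟨S, S' + S * cm c3, -c2, c3 * c2 - c1, lS,
    lS'.add_ord (lS.mul (lead_cm c3)).ord, hS, hS'.add (hS.mul hM (hm c3)), ?_⟩
  rw [← sub_eq_zero, ← h0]
  simp only [cm_neg, cm_sub, cm_mul, mul_sub, add_mul, mul_neg, smul_mul_assoc, mul_smul_comm,
    mul_one, mul_assoc]
  module

/-- The relations `X Y = Y X`, `Y² = X³ + a X + b`. -/
theorem nf_two {M : Submodule A (Fin N → Ls A)} (hM : Stab (Rg E A) M) (hc : Cpl M)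
    {S S' : Matrix (Fin N) (Fin N) (Ls A)} {X Y : Matrix (Fin N) (Fin N) A}
    (lS : Lead (-1) S 1) (lS' : Lead (-2) S' 1) (hS : Col M S) (hS' : Col M S')
    (h : ys E A • S = S' * (xs A • 1 - cm X) - S * cm Y) : MPt E X Y := by
  have hx := Px_le_Rg E (xs_mem_Px (A := A))
  have hm : ∀ c : Matrix (Fin N) (Fin N) A, Ent (Rg E A) (cm c) :=
    fun c => (ent_cm c).mono (Px_le_Rg E)
  have h5 : OrdM (-4) (ys E A • S' - xs A • xs A • S) := (lead_ys lS').sub (lead_xs (lead_xs lS))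
  obtain ⟨q1, h4⟩ := lead_step h5 (lead_xs lS')
  obtain ⟨p1, h3⟩ := lead_step h4 (lead_xs lS)
  obtain ⟨q0, h2⟩ := lead_step h3 lS'
  obtain ⟨p0, h1⟩ := lead_step h2 lS
  have h0 := hc.kill ((((((hS'.smul hM (ys_mem_Rg E)).sub ((hS.smul hM hx).smul hM hx)).sub
    ((hS'.smul hM hx).mul hM (hm q1))).sub ((hS.smul hM hx).mul hM (hm p1))).sub
    (hS'.mul hM (hm q0))).sub (hS.mul hM (hm p0))) h1
  have h' : ys E A • S' = xs A • xs A • S + xs A • S' * cm q1 + xs A • S * cm p1 + S' * cm q0 +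
      S * cm p0 := by
    rw [← sub_eq_zero, ← h0]
    abel
  have e1 : (ys E A * ys E A) • S = (ys E A • S') * (xs A • 1 - cm X) - (ys E A • S) * cm Y := by
    rw [mul_smul, smul_mul_assoc, smul_mul_assoc, ← smul_sub, ← h]
  rw [h', h, ys_sq, ← sub_eq_zero] at e1
  have e2 : S * (xs A • xs A • cm (X - p1) + (xs A • cm (E.a • 1 + p1 * X - p0) +
      cm (E.b • 1 + p0 * X - Y * Y))) + S' * (xs A • xs A • cm (-q1) +
      (xs A • cm (q1 * X + Y - q0) + cm (q0 * X - X * Y))) = 0 := by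
    rw [← e1]
    simp only [cm_neg, cm_sub, cm_add, cm_mul, cm_csmul, cm_one, mul_sub, sub_mul, mul_add, add_mul,
      mul_neg, smul_mul_assoc, mul_smul_comm, mul_one, mul_assoc]
    module
  obtain ⟨e3, e4⟩ := lat_freeM lS lS' (ent_quad _ _ _) (ent_quad _ _ _) e2
  obtain ⟨a2, a1, a0⟩ := quad_eq_zero e3
  obtain ⟨b2, b1, b0⟩ := quad_eq_zero e4
  rw [sub_eq_zero] at a2 a1 a0 b1 b0
  rw [neg_eq_zero.1 b2, zero_mul, zero_add] at b1
  refine ⟨by rw [← b0, b1], ?_⟩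
  rw [← a0, ← a1, ← a2, add_mul, smul_mul_assoc, one_mul, pow_three']
  abel

/-- **Normal form.** A lattice without cohomology is `a U(X, Y)` with `a = 1 + O(t)`. -/
theorem nf {M : Submodule A (Fin N → Ls A)} (hM : Stab (Rg E A) M) (hc : Cpl M) :
    ∃ (a : Matrix (Fin N) (Fin N) (Ls A)) (X Y : Matrix (Fin N) (Fin N) A),
      Lead 0 a 1 ∧ MPt E X Y ∧ M = (U E X Y).map (act a) := by
  obtain ⟨S, S', X, Y, lS, lS', hS, hS', h⟩ := nf_one hM hc
  have hp := nf_two hM hc lS lS' hS hS' h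
  have h1 : S * rhoI X * rho X = S := by rw [mul_assoc, rhoI_mul_rho, mul_one]
  have h2 : S * rhoI X * sig E X Y = S' := by
    have h3 : S' * (rho X * rho X) = S * (ys E A • 1 + cm Y) := by
      rw [rho_mul_rho, mul_add, mul_smul_comm, mul_one, h, sub_add_cancel]
    have h4 : rhoI X * (ys E A • 1 + cm Y) = (ys E A • 1 + cm Y) * rhoI X := by
      rw [mul_add, add_mul, rhoI_inter hp.comm.symm, mul_smul_comm, smul_mul_assoc, mul_one,
        one_mul]
    rw [sig, mul_assoc, ← mul_assoc (rhoI X), h4, ← mul_assoc, ← mul_assoc, ← h3, mul_assoc,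
      mul_assoc, mul_assoc, ← mul_assoc (rho X) (rhoI X), rho_mul_rhoI, one_mul, rho_mul_rhoI,
      mul_one]
  refine ⟨S * rhoI X, X, Y, (lS.mul (lead_rhoI X)).cast rfl (one_mul _), hp, ?_⟩
  rw [U, lat_map, h1, h2]
  exact ((cpl_lat lS lS').eq_of_le hc (lat_le hM.px hS hS')).symm

theorem cpl_map_U {a : Matrix (Fin N) (Fin N) (Ls A)} (ha : Lead 0 a 1)
    (X Y : Matrix (Fin N) (Fin N) A) : Cpl ((U E X Y).map (act a)) := by
  rw [U, lat_map]
  exact cpl_lat ((ha.mul (lead_rho X)).cast rfl (one_mul _))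
    ((ha.mul (lead_sig E X Y)).cast rfl (one_mul _))

theorem stab_map {R : Subring (Ls A)} {M : Submodule A (Fin N → Ls A)} (h : Stab R M)
    (a : Matrix (Fin N) (Fin N) (Ls A)) : Stab R (M.map (act a)) := by
  rintro w hw _ ⟨m, hm, rfl⟩
  exact ⟨w • m, h w hw m hm, mulVec_smul a w m⟩

/-- **Rigidity.** An integral matrix `g` which maps `U(X, Y)` to `a U(X', Y')` is `a g(0)`. -/
theorem rig {g a : Matrix (Fin N) (Fin N) (Ls A)} {H X Y X' Y' : Matrix (Fin N) (Fin N) A}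
    (hg : Lead 0 g H) (ha : Lead 0 a 1) (hp : X * Y = Y * X) (hp' : X' * Y' = Y' * X')
    (h : ∀ m ∈ U E X Y, g *ᵥ m ∈ (U E X' Y').map (act a)) :
    g = a * cm H ∧ H * X = X' * H ∧ H * Y = Y' * H := by
  have hc := cpl_map_U (E := E) ha X' Y'
  rw [U, lat_map] at hc
  rw [U, U, lat_map] at h
  have lS : Lead (-1) (a * rho X') 1 := (ha.mul (lead_rho X')).cast rfl (one_mul _)
  have lS' : Lead (-2) (a * sig E X' Y') 1 := (ha.mul (lead_sig E X' Y')).cast rfl (one_mul _)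
  have hs := stab_lat (a * rho X') (a * sig E X' Y')
  have c1 := col_lat_left (a * rho X') (a * sig E X' Y')
  have c2 := col_lat_right (a * rho X') (a * sig E X' Y')
  have e1 : g * rho X - a * rho X' * cm H = 0 :=
    hc.kill (((col_lat_left _ _).act h).sub (c1.mul hs (ent_cm H)))
      (((hg.mul (lead_rho X)).cast rfl (mul_one _)).sub
        ((lS.mul (lead_cm H)).cast rfl (one_mul _)))
  have o2 : OrdM (-1) (g * sig E X Y - a * sig E X' Y' * cm H) :=
    ((hg.mul (lead_sig E X Y)).cast rfl (mul_one _)).sub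
      ((lS'.mul (lead_cm H)).cast rfl (one_mul _))
  obtain ⟨c, o1⟩ := lead_step o2 lS
  have e2 := hc.kill ((((col_lat_right _ _).act h).sub (c2.mul hs (ent_cm H))).sub
    (c1.mul hs (ent_cm c))) o1
  rw [sub_eq_zero] at e1
  rw [sub_sub, sub_eq_zero] at e2
  have e3 : g * (ys E A • rho X) = a * (ys E A • rho X') * cm H := by
    rw [mul_smul_comm, e1, mul_smul_comm, smul_mul_assoc]
  rw [y_rho hp, y_rho hp', mul_sub, ← mul_assoc, ← mul_assoc, e1, e2, ← sub_eq_zero] at e3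
  have e4 : a * rho X' * (xs A • cm c + cm (Y' * H - H * Y - c * X)) +
      a * sig E X' Y' * (xs A • cm 0 + cm (X' * H - H * X)) = 0 := by
    rw [← e3]
    simp only [cm_zero, cm_sub, cm_mul, mul_sub, sub_mul, mul_add, add_mul, smul_mul_assoc,
      mul_smul_comm, mul_one, one_mul, mul_assoc, smul_zero, mul_zero]
    module
  obtain ⟨e5, e6⟩ := lat_freeM lS lS' (ent_lin _ _) (ent_lin _ _) e4
  obtain ⟨b1, b0⟩ := lin_eq_zero e5
  have hX : H * X = X' * H := (sub_eq_zero.1 (lin_eq_zero e6).2).symm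
  rw [b1, zero_mul, sub_zero, sub_eq_zero] at b0
  refine ⟨?_, hX, b0.symm⟩
  have e7 := congrArg (· * rhoI X) e1
  beta_reduce at e7
  rwa [mul_assoc a, ← rho_inter hX, mul_assoc, mul_assoc, mul_assoc, rho_mul_rhoI, mul_one,
    mul_one] at e7

theorem map_act_one (M : Submodule A (Fin N → Ls A)) : M.map (act 1) = M := by
  rw [act_one, Submodule.map_id]

/-- An integral matrix which maps `U(X, Y)` to `U(X', Y')` is constant. -/
theorem rig_U {g : Matrix (Fin N) (Fin N) (Ls A)} {X Y X' Y' : Matrix (Fin N) (Fin N) A}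
    (hg : IntM g) (hp : X * Y = Y * X) (hp' : X' * Y' = Y' * X')
    (h : ∀ m ∈ U E X Y, g *ᵥ m ∈ U E X' Y') :
    ∃ H, g = cm H ∧ H * X = X' * H ∧ H * Y = Y' * H := by
  have h1 := rig (E := E) (OrdM.lead hg) lead_one hp hp' (by rwa [map_act_one])
  rw [one_mul] at h1
  exact ⟨_, h1⟩

/-- The normal form is unique. -/
theorem nf_uniq {a a' : Matrix (Fin N) (Fin N) (Ls A)} {X Y X' Y' : Matrix (Fin N) (Fin N) A}
    (ha : Lead 0 a 1) (ha' : Lead 0 a' 1) (hp : X * Y = Y * X) (hp' : X' * Y' = Y' * X')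
    (h : (U E X Y).map (act a) ≤ (U E X' Y').map (act a')) : a = a' ∧ X = X' ∧ Y = Y' := by
  have h1 := rig (E := E) ha ha' hp hp' fun m hm => h ⟨m, hm, rfl⟩
  rwa [cm_one, mul_one, one_mul, mul_one, one_mul, mul_one] at h1

/-- Morphisms in normal form: `g f(a U(X, Y)) ⊆ a' U(X', Y')` forces `g f(a) = a' g(0)`. -/
theorem rig_bc (f : A →ₐ[ℂ] B) {a : Matrix (Fin N) (Fin N) (Ls A)}
    {X Y : Matrix (Fin N) (Fin N) A} {g a' : Matrix (Fin N) (Fin N) (Ls B)}
    {H X' Y' : Matrix (Fin N) (Fin N) B} (hg : Lead 0 g H) (ha : Lead 0 a 1) (ha' : Lead 0 a' 1)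
    (hp : X * Y = Y * X) (hp' : X' * Y' = Y' * X')
    (h : ∀ m ∈ (U E X Y).map (act a), g *ᵥ (lm (f : A →+* B) ∘ m) ∈ (U E X' Y').map (act a')) :
    g * a.map (lm (f : A →+* B)) = a' * cm H ∧ H * X.map f = X' * H ∧ H * Y.map f = Y' * H := by
  have h1 := congrArg f.mapMatrix hp
  rw [map_mul, map_mul] at h1
  have h2 : Lead 0 (g * a.map (lm (f : A →+* B))) H :=
    (hg.mul (ha.map (f : A →+* B))).cast rfl (by
      rw [Matrix.map_one _ (map_zero _) (map_one _), mul_one])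
  refine rig (E := E) h2 ha' h1 hp' fun m hm => ?_
  have key : ∀ W, Col (U E X Y) W →
      Col ((U E X' Y').map (act a')) (g * a.map (lm (f : A →+* B)) * W.map (lm (f : A →+* B))) := by
    intro W hW j
    have h3 := h _ ⟨_, hW j, rfl⟩
    rw [act_apply, lm_mulVec, mulVec_mulVec] at h3
    exact h3
  have hs : Stab (Px B) ((U E X' Y').map (act a')) := stab_map (stab_lat _ _) a'
  have h4 := lat_le hs (key _ (col_lat_left _ _)) (key _ (col_lat_right _ _))
  rw [rho_map, sig_map, ← lat_map] at h4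
  exact h4 ⟨m, hm, rfl⟩

end

end Vale.Agent.P286EN
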