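import Vale.Agent.P286EN.Fam2

/-!
# The lattices of the charts
-/

set_option linter.all false

namespace Vale.Agent.P286EN

open Matrix Vale.Agent.P286 Vale.Agent.P286E Vale.Agent.P286EL
open Vale.Agent.P286EB (sr sI ea da gv tw thM Rk1 Prj Pt Xm FM FAMM)
open Vale.Agent.P286ER (On)
open Vale.Agent.P286ET (Ix)

noncomputable section

attribute [-instance] HahnSeries.powerSeriesAlgebra

variable {A : Type} [CommRing A] [Algebra ℂ A] {N : ℕ} {E : Ell} {e : Rt E} {x : A}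

theorem det_cancel {S T W : Matrix (Fin N) (Fin N) (Ls A)} (h : S * T = W) {z w : Ls A}
    (hz : S.det * z = 1) (hw : W.det = S.det * w) : T.det = w := by
  have h1 := congrArg Matrix.det h
  rw [det_mul, hw] at h1
  linear_combination z * h1 + (w - T.det) * hz

theorem C_dot (ξ : Fin 3 → A) : ((HahnSeries.C ∘ ξ : Fin 3 → Ls A) ⬝ᵥ (HahnSeries.C ∘ ξ)) =
    HahnSeries.C (ξ ⬝ᵥ ξ) := (RingHom.map_dotProduct (HahnSeries.C : A →+* Ls A) ξ ξ).symm

theorem gx_eq : gx e A = (xs A - cc A e.e) ^ 2 + 3 * cc A e.e * (xs A - cc A e.e) +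
    HahnSeries.C (da e A) := by
  rw [gx, show (HahnSeries.C (da e A) : Ls A) = cc A e.d from rfl, cc_d]
  ring

theorem fam_b_two {ξ : Fin 3 → A} (hs : ξ ⬝ᵥ ξ = fv E x) (hg : IsUnit (gv e x)) :
    Fam e (F2.map (algebraMap ℂ A)) (ea e A • 1 + Ring.inverse (gv e x) • (h2 ξ * h2 ξ)) (h2 ξ) 1
      (thM e .b x) := by
  have hγ := Ring.inverse_mul_cancel _ hg
  refine fam_b 0 hγ (ht_skew ok_SL2 ξ) (by rw [pm_sq, hs, smul_mul_assoc, one_mul]) hg ?_
  have h1 : ea e A • 1 + Ring.inverse (gv e x) • (h2 ξ * h2 ξ) = x • 1 := by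
    rw [pm_sq, hs, smul_smul, ← add_smul, fv_fac e]
    congr 1
    linear_combination (x - ea e A) * hγ
  have h4 : gm e (x • (1 : Matrix (Fin 2) (Fin 2) A)) = gv e x • 1 := by
    rw [← gm_mul_of e (H := 1) (mul_one _), mul_one]
  have h5 : cm (h2 ξ) = pm (io A) (HahnSeries.C ∘ ξ) := cm_ht SL2 ξ
  have h6 := congrArg (HahnSeries.C : A →+* Ls A) (P286EW.gv_eq e x)
  have h7 : (j1 e A • rho (x • (1 : Matrix (Fin 2) (Fin 2) A))).det =
      (xs A - cc A e.e) * (xs A - HahnSeries.C x) := by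
    rw [rho_scalar, smul_smul, det_smul, det_one, Fintype.card_fin, ← j1_j1, ← sr_mul_sr]
    ring
  rw [h1]
  refine det_cancel (rho_tau e _ _) (z := ji e A * ji e A * (sI x * sI x)) ?_ ?_
  · rw [h7]
    linear_combination (sI x * sI x * (xs A - HahnSeries.C x)) * ji_sq (A := A) e + sI_sq x
  · rw [h7, h4, cm_smul, cm_one, smul_smul, h5, det_two, C_dot, hs, fv_fac e, pow_two (ys E A),
      yy e, gx_eq, thM, ← C_mul, cc_e]
    simp only [map_mul, map_add, map_sub, map_pow, map_ofNat] at h6 ⊢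
    rw [h6]
    ring

theorem fam_b_three {ξ : Fin 3 → A} (hs : ξ ⬝ᵥ ξ = fv E x) (hg : IsUnit (gv e x)) :
    Fam e 1 (ea e A • 1 + Ring.inverse (gv e x) • (h3 ξ * h3 ξ)) (h3 ξ) 1 (thM e .b x) := by
  have hγ := Ring.inverse_mul_cancel _ hg
  have hc : h3 ξ * h3 ξ * h3 ξ = fv E x • h3 ξ := by rw [rm_cube, hs]
  refine fam_b 0 hγ (by rw [h3_skew, mul_one, one_mul]) hc (hg.mul (P286EW.da_unit e)) ?_
  generalize Ring.inverse (gv e x) = γ at hγ ⊢
  have h5 : cm (h3 ξ) = rm (io A) (HahnSeries.C ∘ ξ) := cm_ht SO3 ξ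
  have h6 := congrArg (HahnSeries.C : A →+* Ls A) (P286EW.gv_eq e x)
  have h8 := congrArg (HahnSeries.C : A →+* Ls A) hγ
  have h9 : ((HahnSeries.C ∘ ξ : Fin 3 → Ls A) ⬝ᵥ (HahnSeries.C ∘ ξ)) =
      (HahnSeries.C x - cc A e.e) * HahnSeries.C (gv e x) := by
    rw [C_dot, hs, fv_fac e, map_mul, map_sub, cc_e]
  simp only [map_mul, map_add, map_sub, map_pow, map_ofNat, map_one, ← cc_e] at h6 h8
  have h1 : (xs A • 1 - cm (ea e A • 1 + γ • (h3 ξ * h3 ξ))).det =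
      (j1 e A * (xs A - HahnSeries.C x)) * (j1 e A * (xs A - HahnSeries.C x)) := by
    have h2 : xs A • 1 - cm (ea e A • 1 + γ • (h3 ξ * h3 ξ)) = (xs A - HahnSeries.C x) • 1 +
        (HahnSeries.C γ : Ls A) • vecMulVec (HahnSeries.C ∘ ξ) (HahnSeries.C ∘ ξ) +
        (0 : Ls A) • rm (io A) (HahnSeries.C ∘ ξ) := by
      rw [cm_add, cm_smul, cm_smul, cm_one, cm_mul, h5, rm_sq, h9, ← cc_e]
      match_scalars
      · linear_combination (-(HahnSeries.C x - cc A e.e)) * h8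
      · ring
      · ring
    rw [h2, det_three, h9]
    linear_combination (xs A - HahnSeries.C x) ^ 2 * ((HahnSeries.C x - cc A e.e) * h8 -
      j1_j1 (A := A) e)
  have o1 : Ord (-2) (xs A - HahnSeries.C x) := ord_xs.sub ((Ord.C _).mono (by norm_num))
  have o2 : Ord (-3) (rho (ea e A • 1 + γ • (h3 ξ * h3 ξ))).det :=
    (lead_rho (N := 3) _).det.1
  have o3 : Ord (-3) (j1 e A * (xs A - HahnSeries.C x)) := ord_j1.mul' o1
  have h3' : (rho (ea e A • 1 + γ • (h3 ξ * h3 ξ))).det = j1 e A * (xs A - HahnSeries.C x) := by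
    refine sub_eq_zero.1 (eq_zero_of_mul_lead (o2.add o3) ?_ ?_)
    · have c1 : (rho (ea e A • 1 + γ • (h3 ξ * h3 ξ))).det.coeff (-3) = 1 :=
        (lead_rho (N := 3) _).det.2.trans det_one
      have c2 : (j1 e A * (xs A - HahnSeries.C x)).coeff (-3) = 1 :=
        (coeff_mul_lead ord_j1 o1).trans (by
          rw [HahnSeries.coeff_sub, xs_coeff, C_coeff _ _ (by norm_num), j1_eq, coeff_sr]
          ring)
      rw [HahnSeries.coeff_add, c1, c2, one_add_one_eq_two]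
      exact unit_two
    · rw [← rho_mul_rho, det_mul] at h1
      linear_combination h1
  have h7 : (j1 e A • rho (ea e A • 1 + γ • (h3 ξ * h3 ξ))).det =
      (xs A - cc A e.e) ^ 2 * (xs A - HahnSeries.C x) := by
    rw [det_smul, h3', Fintype.card_fin, ← j1_j1]
    ring
  refine det_cancel (rho_tau e _ _) (z := (ji e A * ji e A) ^ 2 * (sI x * sI x)) ?_ ?_
  · rw [h7]
    linear_combination (sI x * sI x * (xs A - HahnSeries.C x) *
      (ji e A * ji e A * (xs A - cc A e.e) + 1)) * ji_sq (A := A) e + sI_sq x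
  · have h2 : (xs A - cc A e.e) • cm (gm e (ea e A • 1 + γ • (h3 ξ * h3 ξ))) + ys E A • cm (h3 ξ) =
        ((xs A - cc A e.e) * HahnSeries.C (gv e x)) • 1 + (-((xs A - cc A e.e) *
          (2 * cc A e.e + HahnSeries.C x) * HahnSeries.C γ)) •
          vecMulVec (HahnSeries.C ∘ ξ) (HahnSeries.C ∘ ξ) +
          ys E A • rm (io A) (HahnSeries.C ∘ ξ) := by
      rw [gm_b hγ hc, cm_add, cm_smul, cm_smul, cm_one, cm_mul, h5, rm_sq, h9]
      simp only [map_mul, map_add, map_ofNat, ← cc_e]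
      match_scalars
      · linear_combination (xs A - cc A e.e) * ((2 * cc A e.e + HahnSeries.C x) *
          (HahnSeries.C x - cc A e.e) * h8 - h6)
      · ring
      · ring
    have h4 : (xs A - cc A e.e) * HahnSeries.C (gv e x) + -((xs A - cc A e.e) *
        (2 * cc A e.e + HahnSeries.C x) * HahnSeries.C γ) *
        ((HahnSeries.C x - cc A e.e) * HahnSeries.C (gv e x)) =
        (xs A - cc A e.e) * HahnSeries.C (da e A) := by
      linear_combination (xs A - cc A e.e) * (h6 - (2 * cc A e.e + HahnSeries.C x) *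
        (HahnSeries.C x - cc A e.e) * h8)
    rw [h7, h2, det_three, h9, h4, pow_two (ys E A), yy e, gx_eq, thM, ← C_mul]
    simp only [map_mul, map_sub, ← cc_e]
    rw [h6]
    ring

theorem pta_two {ξ : Fin 3 → A} (hs : ξ ⬝ᵥ ξ = fv E x) :
    PtA E (F2.map (algebraMap ℂ A)) x (h2 ξ) 0 :=
  ⟨by rw [transpose_zero, zero_mul, mul_zero], mul_zero _, mul_zero _, zero_mul _,
    ht_skew ok_SL2 ξ, by rw [pm_sq, hs, sub_zero]⟩

theorem prj_two {ξ : Fin 3 → A} {π : Matrix (Fin 2) (Fin 2) A} (h : Prj SL2 ξ π) : π = 0 := by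
  have h1 : π = π 0 0 • 1 := sl2_scalar h.adj
  have h2 : trace π = ((2 : ℕ) : A) - 2 := h.tr
  rw [h1, trace_smul, trace_one, Fintype.card_fin, Nat.cast_ofNat, sub_self, smul_eq_mul,
    mul_comm] at h2
  rw [h1, two_mul_eq_zero (algebraMap ℂ A) h2, zero_smul]

theorem pta_three {ξ : Fin 3 → A} {π : Matrix (Fin 3) (Fin 3) A} (hs : ξ ⬝ᵥ ξ = fv E x)
    (h : Prj SO3 ξ π) : trace π = 1 ∧ PtA E 1 x (h3 ξ) π := by
  have h1 : πᵀ * 1 = 1 * π := F_SO3 (A := A) ▸ h.adj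
  have h2 : trace π = ((3 : ℕ) : A) - 2 := h.tr
  have h4 : h3 ξ * π = 0 := h.ker
  rw [show ((3 : ℕ) : A) - 2 = 1 by norm_num] at h2
  have h5 : πᵀ = π := by rwa [mul_one, one_mul] at h1
  have h6 := congrArg transpose h4
  rw [transpose_mul, h5, h3_skew, mul_neg, transpose_zero, neg_eq_zero] at h6
  exact ⟨h2, h1, by rw [rk1_sq (N := 3) h.rk, h2, one_smul], h4, h6, by rw [h3_skew, mul_one, one_mul],
    by rw [rm_sq, vec_of_ker _ h5 h2 h4, hs, smul_sub]⟩

theorem fam_a_two {ξ : Fin 3 → A} (hs : ξ ⬝ᵥ ξ = fv E x) : Fam e (F2.map (algebraMap ℂ A))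
    (ea e A • 0 + x • (1 - 0)) (h2 ξ) 0 (xs A - HahnSeries.C x) :=
  (pta_two hs).fam 0 isUnit_one (by
    rw [cm_zero, smul_zero, add_zero, sub_zero, det_smul, det_one, Fintype.card_fin, one_smul,
      mul_one, pow_two, sr_mul_sr])

theorem fam_a_three {ξ : Fin 3 → A} {π : Matrix (Fin 3) (Fin 3) A} (hs : ξ ⬝ᵥ ξ = fv E x)
    (h : Prj SO3 ξ π) :
    Fam e 1 (ea e A • π + x • (1 - π)) (h3 ξ) π (xs A - HahnSeries.C x) := by
  obtain ⟨h1, h2⟩ := pta_three hs h
  refine h2.fam 0 (P286EW.da_unit e) ?_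
  have h4 : Rk1 (cm π) := fun i j k l => by
    rw [cm_apply, cm_apply, cm_apply, cm_apply, ← map_mul, ← map_mul, h.rk i j k l]
  have h5 : trace (cm π) = 1 := by
    rw [cm, ← AddMonoidHom.map_trace, h1, map_one]
  have h6 : sr x • (1 - cm π) + (HahnSeries.C (da e A) : Ls A) • cm π =
      sr x • 1 + (HahnSeries.C (da e A) - sr x) • cm π := by module
  rw [h6, det_rk1 h4, h5, ← C_mul, ← sr_mul_sr]
  ring

theorem famm : FAMM := by
  intro E e G hG A _ _ i x ξ π h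
  have hs : ξ ⬝ᵥ ξ = fv E x := h.sq
  by_cases hi : i = .b
  · subst hi
    obtain ⟨hg, rfl⟩ := h.ub rfl
    rcases hG with rfl | rfl
    · obtain ⟨a1, a2, a3, a4, a5, a6, a7⟩ := fam_b_two hs hg
      exact ⟨a1, a2, a3, a4, a5, a6, a7, fun hb => absurd rfl hb⟩
    · obtain ⟨a1, a2, a3, a4, a5, a6, a7⟩ := fam_b_three hs hg
      exact ⟨a1, a2, a3, a4, a5, frm_SO3.1 a6, a7, fun hb => absurd rfl hb⟩
  have hp := h.pr hi
  have hX : Xm e G i x ξ π = ea e A • π + x • (1 - π) := by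
    cases i <;> first | exact absurd rfl hi | rfl
  have hT : thM e i x = xs A - HahnSeries.C x := by cases i <;> first | exact absurd rfl hi | rfl
  rw [FM, hX, hT]
  rcases hG with rfl | rfl
  · obtain rfl : π = 0 := prj_two hp
    obtain ⟨a1, a2, a3, a4, a5, a6, a7⟩ := fam_a_two (e := e) hs
    exact ⟨a1, a2, a3, a4, a5, a6, a7, fun _ => (pta_two hs).h0 (0 : Fin 2)⟩
  · obtain ⟨a1, a2, a3, a4, a5, a6, a7⟩ := fam_a_three (e := e) hs hp
    exact ⟨a1, a2, a3, a4, a5, frm_SO3.1 a6, a7, fun _ => (pta_three hs hp).2.h0 (0 : Fin 3)⟩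

end

end Vale.Agent.P286EN
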