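import Vale.Agent.P286EN.Rho

/-!
# Lattices with a basis `S = t⁻¹ + …`, `S' = t⁻² + …` over `A[x]`
-/

set_option linter.all false

namespace Vale.Agent.P286EN

open Matrix Vale.Agent.P286 Vale.Agent.P286E

noncomputable section

attribute [-instance] HahnSeries.powerSeriesAlgebra

variable {A B : Type} [CommRing A] [CommRing B] {N : ℕ}

theorem ord_succ {n : ℤ} {w : Ls A} (h : Ord n w) (h0 : w.coeff n = 0) : Ord (n + 1) w :=
  fun k hk => by
  by_cases h1 : k < n
  · exact h k h1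
  · rw [show k = n by omega, h0]

theorem coeff_mul_lead {m n : ℤ} {u w : Ls A} (hu : Ord m u) (hw : Ord n w) :
    (u * w).coeff (m + n) = u.coeff m * w.coeff n := by
  have h1 : Ord (m + 1) (u - HahnSeries.single m (u.coeff m)) :=
    ord_succ (hu.sub (Ord.single _ _)) (by
      rw [HahnSeries.coeff_sub, HahnSeries.coeff_single_same, sub_self])
  have h2 := (h1.mul' hw) (m + n) (by omega)
  rw [sub_mul, HahnSeries.coeff_sub, sub_eq_zero] at h2
  rw [h2, add_comm m n, HahnSeries.coeff_single_mul_add]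

/-- A matrix with entries in `tⁿ A[[t]]`. -/
def OrdM {m l : Type} (n : ℤ) (W : Matrix m l (Ls A)) : Prop := ∀ i j, Ord n (W i j)

section
variable {k m l : Type}

theorem OrdM.mul [Fintype m] {a b : ℤ} {S : Matrix k m (Ls A)} {W : Matrix m l (Ls A)}
    (hS : OrdM a S) (hW : OrdM b W) : OrdM (a + b) (S * W) := fun i j => by
  rw [Matrix.mul_apply]
  exact Ord.sum _ fun r _ => (hS i r).mul' (hW r j)

theorem OrdM.add {a : ℤ} {S W : Matrix m l (Ls A)} (hS : OrdM a S) (hW : OrdM a W) :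
    OrdM a (S + W) := fun i j => (hS i j).add (hW i j)

theorem OrdM.sub {a : ℤ} {S W : Matrix m l (Ls A)} (hS : OrdM a S) (hW : OrdM a W) :
    OrdM a (S - W) := fun i j => (hS i j).sub (hW i j)

theorem OrdM.mono {a b : ℤ} (h : a ≤ b) {S : Matrix m l (Ls A)} (hS : OrdM b S) : OrdM a S :=
  fun i j => (hS i j).mono h

theorem OrdM.smul {a b : ℤ} {w : Ls A} {S : Matrix m l (Ls A)} (hw : Ord a w) (hS : OrdM b S) :
    OrdM (a + b) (w • S) := fun i j => hw.mul' (hS i j)

theorem OrdM.mulVec [Fintype l] {a b : ℤ} {S : Matrix m l (Ls A)} {v : l → Ls A}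
    (hS : OrdM a S) (hv : ∀ j, Ord b (v j)) (i : m) : Ord (a + b) ((S *ᵥ v) i) :=
  Ord.sum _ fun r _ => (hS i r).mul' (hv r)

theorem OrdM.lead {a : ℤ} {S : Matrix m l (Ls A)} (hS : OrdM a S) :
    Lead a S (of fun i j => (S i j).coeff a) := ⟨hS, fun _ _ => rfl⟩

theorem Lead.ord {a : ℤ} {S : Matrix m l (Ls A)} {c : Matrix m l A} (h : Lead a S c) : OrdM a S :=
  h.1

theorem Lead.cast {a b : ℤ} {S : Matrix m l (Ls A)} {c d : Matrix m l A} (h : Lead a S c)
    (h1 : a = b) (h2 : c = d) : Lead b S d := h1 ▸ h2 ▸ h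

theorem Lead.uniq {a : ℤ} {S : Matrix m l (Ls A)} {c d : Matrix m l A} (h : Lead a S c)
    (h' : Lead a S d) : c = d := Matrix.ext fun i j => (h.2 i j).symm.trans (h'.2 i j)

theorem Lead.mul [Fintype m] {a b : ℤ} {S : Matrix k m (Ls A)} {W : Matrix m l (Ls A)}
    {c : Matrix k m A} {d : Matrix m l A} (hS : Lead a S c) (hW : Lead b W d) :
    Lead (a + b) (S * W) (c * d) :=
  ⟨hS.ord.mul hW.ord, fun i j => by
    rw [Matrix.mul_apply, Matrix.mul_apply, HahnSeries.coeff_sum]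
    exact Finset.sum_congr rfl fun r _ => by
      rw [coeff_mul_lead (hS.1 i r) (hW.1 r j), hS.2, hW.2]⟩

theorem Lead.smul {a b : ℤ} {w : Ls A} {S : Matrix m l (Ls A)} {c : Matrix m l A} (hw : Ord a w)
    (h1 : w.coeff a = 1) (hS : Lead b S c) : Lead (a + b) (w • S) c :=
  ⟨OrdM.smul hw hS.ord, fun i j => by
    rw [Matrix.smul_apply, smul_eq_mul, coeff_mul_lead hw (hS.1 i j), h1, one_mul, hS.2]⟩

theorem Lead.add_ord {a : ℤ} {S W : Matrix m l (Ls A)} {c : Matrix m l A} (hS : Lead a S c)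
    (hW : OrdM (a + 1) W) : Lead a (S + W) c :=
  ⟨hS.ord.add (hW.mono (by omega)), fun i j => by
    rw [Matrix.add_apply, HahnSeries.coeff_add, hS.2, hW i j a (by omega), add_zero]⟩

theorem Lead.sub_ord {a : ℤ} {S W : Matrix m l (Ls A)} {c : Matrix m l A} (hS : Lead a S c)
    (hW : OrdM (a + 1) W) : Lead a (S - W) c := by
  rw [sub_eq_add_neg]
  exact hS.add_ord fun i j => (hW i j).neg

theorem Lead.sub {a : ℤ} {S W : Matrix m l (Ls A)} {c : Matrix m l A} (hS : Lead a S c)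
    (hW : Lead a W c) : OrdM (a + 1) (S - W) := fun i j =>
  ord_succ ((hS.1 i j).sub (hW.1 i j)) (by
    rw [Matrix.sub_apply, HahnSeries.coeff_sub, hS.2, hW.2, sub_self])

theorem Lead.transpose {a : ℤ} {S : Matrix m l (Ls A)} {c : Matrix m l A} (hS : Lead a S c) :
    Lead a Sᵀ cᵀ := ⟨fun i j => hS.1 j i, fun i j => hS.2 j i⟩

theorem Lead.map (f : A →+* B) {a : ℤ} {S : Matrix m l (Ls A)} {c : Matrix m l A}
    (hS : Lead a S c) : Lead a (S.map (lm f)) (c.map f) :=
  ⟨fun i j => (hS.1 i j).lm f, fun i j => congrArg f (hS.2 i j)⟩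

theorem Lead.coeff_mulVec [Fintype m] [DecidableEq m] {a b : ℤ} {S : Matrix m m (Ls A)}
    {v : m → Ls A} (hS : Lead a S 1) (hv : ∀ j, Ord b (v j)) (i : m) :
    ((S *ᵥ v) i).coeff (a + b) = (v i).coeff b := by
  have h : Lead b (replicateCol Unit v) (replicateCol Unit fun i => (v i).coeff b) :=
    ⟨fun j _ => hv j, fun _ _ => rfl⟩
  have h2 := (hS.mul h).2 i ()
  rw [Matrix.one_mul] at h2
  exact h2

end

theorem lead_cm (X : Matrix (Fin N) (Fin N) A) : Lead 0 (cm X) X :=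
  ⟨fun _ _ => Ord.C _, fun _ _ => HahnSeries.coeff_single_same _ _⟩

theorem cm_inj {X Y : Matrix (Fin N) (Fin N) A} (h : cm X = cm Y) : X = Y :=
  (lead_cm X).uniq (h ▸ lead_cm Y)

theorem lead_one : Lead 0 (1 : Matrix (Fin N) (Fin N) (Ls A)) 1 := cm_one (A := A) ▸ lead_cm 1

theorem ord_xs : Ord (-2) (xs A) := Ord.single _ _

theorem xs_coeff : (xs A).coeff (-2) = 1 := HahnSeries.coeff_single_same _ _

/-! ### Polynomials in `x` -/

/-- The substitution `T = x`. -/
def evx (A : Type) [CommRing A] : Polynomial A →+* Ls A :=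
  Polynomial.eval₂RingHom HahnSeries.C (xs A)

theorem evx_apply (p : Polynomial A) : evx A p = p.eval₂ HahnSeries.C (xs A) := rfl

theorem evx_C (a : A) : evx A (Polynomial.C a) = HahnSeries.C a := Polynomial.eval₂_C _ _

theorem evx_X : evx A Polynomial.X = xs A := Polynomial.eval₂_X _ _

theorem xs_pow (n : ℕ) : xs A ^ n = HahnSeries.single (-(2 * (n : ℤ))) 1 := by
  rw [xs, HahnSeries.single_pow, one_pow, nsmul_eq_mul, mul_neg, mul_comm]

theorem evx_monomial (n : ℕ) (a : A) :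
    evx A (Polynomial.monomial n a) = HahnSeries.single (-(2 * (n : ℤ))) a := by
  rw [evx_apply, Polynomial.eval₂_monomial, xs_pow, HahnSeries.C_apply,
    HahnSeries.single_mul_single, zero_add, mul_one]

theorem evx_coeff_two (p : Polynomial A) (n : ℕ) :
    (evx A p).coeff (-(2 * (n : ℤ))) = p.coeff n := by
  induction p using Polynomial.induction_on' with
  | add p q hp hq => rw [map_add, HahnSeries.coeff_add, hp, hq, Polynomial.coeff_add]
  | monomial l a =>
    rw [evx_monomial, HahnSeries.coeff_single, Polynomial.coeff_monomial]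
    by_cases h : l = n
    · rw [if_pos h, if_pos (by rw [h])]
    · rw [if_neg h, if_neg (by omega)]

theorem evx_coeff_ne (p : Polynomial A) (k : ℤ) (h : ∀ n : ℕ, k ≠ -(2 * (n : ℤ))) :
    (evx A p).coeff k = 0 := by
  induction p using Polynomial.induction_on' with
  | add p q hp hq => rw [map_add, HahnSeries.coeff_add, hp, hq, add_zero]
  | monomial l a => rw [evx_monomial, HahnSeries.coeff_single_of_ne (h l)]

theorem evx_smul (a : A) (p : Polynomial A) : evx A (a • p) = a • evx A p := by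
  rw [Polynomial.smul_eq_C_mul, map_mul, evx_C, C_mul]

theorem lm_evx (f : A →+* B) (p : Polynomial A) : lm f (evx A p) = evx B (p.map f) := by
  induction p using Polynomial.induction_on' with
  | add p q hp hq => rw [map_add, map_add, hp, hq, Polynomial.map_add, map_add]
  | monomial l a => rw [Polynomial.map_monomial, evx_monomial, evx_monomial, lm_single]

/-- The ring `A[x]`. -/
def Px (A : Type) [CommRing A] : Subring (Ls A) := (evx A).range

theorem C_mem_Px (a : A) : (HahnSeries.C a : Ls A) ∈ Px A := ⟨_, evx_C a⟩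

theorem xs_mem_Px : xs A ∈ Px A := ⟨_, evx_X⟩

theorem px_odd {w : Ls A} (hw : w ∈ Px A) {k : ℤ} (hk : k % 2 = 1) : w.coeff k = 0 := by
  obtain ⟨p, rfl⟩ := hw
  exact evx_coeff_ne p k fun n => by omega

theorem px_eq_C {w : Ls A} (hw : w ∈ Px A) (h : Ord (-1) w) : w = HahnSeries.C (w.coeff 0) := by
  obtain ⟨p, rfl⟩ := hw
  ext k
  by_cases hk : k = 0
  · rw [hk]
    exact (HahnSeries.coeff_single_same _ _).symm
  · rw [HahnSeries.C_apply, HahnSeries.coeff_single_of_ne hk]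
    by_cases h1 : k < -1
    · exact h k h1
    · exact evx_coeff_ne p k fun n => by omega

theorem px_eq_zero {w : Ls A} (hw : w ∈ Px A) (h : Ord 1 w) : w = 0 := by
  rw [px_eq_C hw (h.mono (by omega)), h 0 (by omega), map_zero]

/-- The two summands of a vector `S p(x) + S' q(x)` have pole orders of different parity. -/
theorem sep {m m' n : ℤ} {S S' : Matrix (Fin N) (Fin N) (Ls A)} (hS : Lead m S 1)
    (hS' : Lead m' S' 1) (hm : (m + m') % 2 = 1) {u v : Fin N → Ls A} (hu : ∀ i, u i ∈ Px A)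
    (hv : ∀ i, v i ∈ Px A) (h : ∀ i, Ord n ((S *ᵥ u + S' *ᵥ v) i)) :
    (∀ i, Ord (n - m) (u i)) ∧ ∀ i, Ord (n - m') (v i) := by
  have step : ∀ {m m' : ℤ} {S S' : Matrix (Fin N) (Fin N) (Ls A)} {u v : Fin N → Ls A},
      Lead m S 1 → Lead m' S' 1 → (∀ i, u i ∈ Px A) → (∀ i, Ord n ((S *ᵥ u + S' *ᵥ v) i)) →
      ∀ j < n, (j - m) % 2 = 1 → (∀ i, Ord (j - m) (u i)) → (∀ i, Ord (j - m') (v i)) →
      (∀ i, Ord (j + 1 - m) (u i)) ∧ ∀ i, Ord (j + 1 - m') (v i) := by
    intro m m' S S' u v hS hS' hu h j hj hp h1 h2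
    have h3 : ∀ i, Ord (j - m + 1) (u i) := fun i => ord_succ (h1 i) (px_odd (hu i) hp)
    refine ⟨fun i => (h3 i).mono (by omega), fun i => (ord_succ (h2 i) ?_).mono (by omega)⟩
    have h4 := h i j hj
    have h5 := hS'.coeff_mulVec h2 i
    rw [show m' + (j - m') = j by omega] at h5
    rwa [Pi.add_apply, HahnSeries.coeff_add, hS.ord.mulVec h3 i j (by omega), zero_add, h5] at h4
  choose a ha using fun i => exists_ord (u i)
  choose b hb using fun i => exists_ord (v i)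
  obtain ⟨c, hc⟩ := (Set.finite_range fun i => min (a i + m) (b i + m')).bddBelow
  have hc' : ∀ i, c ≤ min (a i + m) (b i + m') := fun i => hc ⟨i, rfl⟩
  have key : ∀ r : ℕ, min c n + r ≤ n → (∀ i, Ord (min c n + r - m) (u i)) ∧
      ∀ i, Ord (min c n + r - m') (v i) := by
    intro r
    induction r with
    | zero =>
      exact fun _ => ⟨fun i => (ha i).mono (by have := hc' i; omega),
        fun i => (hb i).mono (by have := hc' i; omega)⟩
    | succ r ih =>
      intro hr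
      obtain ⟨h1, h2⟩ := ih (by omega)
      rw [show min c n + ((r + 1 : ℕ) : ℤ) = min c n + r + 1 by omega]
      by_cases hp : (min c n + r - m) % 2 = 1
      · exact step hS hS' hu h _ (by omega) hp h1 h2
      · exact (step hS' hS hv (by rwa [add_comm]) _ (by omega) (by omega) h2 h1).symm
  have h6 := key (n - min c n).toNat (by omega)
  rwa [show min c n + ((n - min c n).toNat : ℤ) = n by omega] at h6

/-! ### Lattices -/

/-- The submodule `M` is stable under the ring `R`. -/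
def Stab (R : Subring (Ls A)) (M : Submodule A (Fin N → Ls A)) : Prop :=
  ∀ w ∈ R, ∀ m ∈ M, w • m ∈ M

/-- The columns of `W` lie in `M`. -/
def Col (M : Submodule A (Fin N → Ls A)) (W : Matrix (Fin N) (Fin N) (Ls A)) : Prop :=
  ∀ j, (fun i => W i j) ∈ M

/-- The entries of `W` lie in `R`. -/
def Ent (R : Subring (Ls A)) (W : Matrix (Fin N) (Fin N) (Ls A)) : Prop := ∀ i j, W i j ∈ R

section
variable {R : Subring (Ls A)} {M : Submodule A (Fin N → Ls A)}
  {W Z S S' : Matrix (Fin N) (Fin N) (Ls A)}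

theorem Col.mulVec (hM : Stab R M) (hW : Col M W) {v : Fin N → Ls A} (hv : ∀ i, v i ∈ R) :
    W *ᵥ v ∈ M := by
  have h : W *ᵥ v = ∑ j, v j • fun i => W i j := by
    funext i
    rw [Finset.sum_apply]
    exact Finset.sum_congr (s₁ := Finset.univ) (f := fun j => W i j * v j) rfl fun j _ =>
      mul_comm (W i j) (v j)
  rw [h]
  exact M.sum_mem fun j _ => hM _ (hv j) _ (hW j)

theorem Col.mul (hM : Stab R M) (hW : Col M W) (hZ : Ent R Z) : Col M (W * Z) :=
  fun j => hW.mulVec hM fun i => hZ i j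

theorem Col.add (hW : Col M W) (hZ : Col M Z) : Col M (W + Z) := fun j => M.add_mem (hW j) (hZ j)

theorem Col.sub (hW : Col M W) (hZ : Col M Z) : Col M (W - Z) := fun j => M.sub_mem (hW j) (hZ j)

theorem Col.smul (hM : Stab R M) {w : Ls A} (hw : w ∈ R) (hW : Col M W) : Col M (w • W) :=
  fun j => hM w hw _ (hW j)

theorem Col.mono {M' : Submodule A (Fin N → Ls A)} (h : M ≤ M') (hW : Col M W) : Col M' W :=
  fun j => h (hW j)

theorem Col.act {M' : Submodule A (Fin N → Ls A)} (h : ∀ m ∈ M, Z *ᵥ m ∈ M') (hW : Col M W) :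
    Col M' (Z * W) := fun j => h _ (hW j)

theorem Col.eq_zero (hM : Disjoint M (LinearMap.ker (pol N A))) (hW : Col M W) (h : OrdM 0 W) :
    W = 0 := Matrix.ext fun i j =>
  congrFun (Submodule.disjoint_def.1 hM _ (hW j) (pol_eq_zero.2 fun i => h i j)) i

theorem Ent.mul (hW : Ent R W) (hZ : Ent R Z) : Ent R (W * Z) := fun i j => by
  rw [Matrix.mul_apply]
  exact R.sum_mem fun r _ => R.mul_mem (hW i r) (hZ r j)

theorem Ent.add (hW : Ent R W) (hZ : Ent R Z) : Ent R (W + Z) :=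
  fun i j => R.add_mem (hW i j) (hZ i j)

theorem Ent.sub (hW : Ent R W) (hZ : Ent R Z) : Ent R (W - Z) :=
  fun i j => R.sub_mem (hW i j) (hZ i j)

theorem Ent.smul {w : Ls A} (hw : w ∈ R) (hZ : Ent R Z) : Ent R (w • Z) :=
  fun i j => R.mul_mem hw (hZ i j)

theorem Ent.mono {R' : Subring (Ls A)} (h : R ≤ R') (hZ : Ent R Z) : Ent R' Z :=
  fun i j => h (hZ i j)

theorem Ent.transpose (hZ : Ent R Z) : Ent R Zᵀ := fun i j => hZ j i

theorem Ent.mulVec (hZ : Ent R Z) {v : Fin N → Ls A} (hv : ∀ i, v i ∈ R) (i : Fin N) :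
    (Z *ᵥ v) i ∈ R :=
  R.sum_mem (t := Finset.univ) (f := fun r => Z i r * v r) fun r _ => R.mul_mem (hZ i r) (hv r)

theorem ent_cm (X : Matrix (Fin N) (Fin N) A) : Ent (Px A) (cm X) := fun _ _ => C_mem_Px _

theorem ent_one : Ent R (1 : Matrix (Fin N) (Fin N) (Ls A)) := fun i j => by
  rw [Matrix.one_apply]
  split_ifs
  · exact R.one_mem
  · exact R.zero_mem

end

/-- The lattice `{S p(x) + S' q(x)}`. -/
def Lat (S S' : Matrix (Fin N) (Fin N) (Ls A)) : Submodule A (Fin N → Ls A) where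
  carrier := {m | ∃ u v : Fin N → Ls A, (∀ i, u i ∈ Px A) ∧ (∀ i, v i ∈ Px A) ∧
    m = S *ᵥ u + S' *ᵥ v}
  add_mem' := by
    rintro _ _ ⟨u, v, hu, hv, rfl⟩ ⟨u', v', hu', hv', rfl⟩
    exact ⟨u + u', v + v', fun i => (Px A).add_mem (hu i) (hu' i),
      fun i => (Px A).add_mem (hv i) (hv' i), by rw [mulVec_add, mulVec_add, add_add_add_comm]⟩
  zero_mem' := ⟨0, 0, fun _ => (Px A).zero_mem, fun _ => (Px A).zero_mem, by simp⟩
  smul_mem' := by
    rintro c _ ⟨u, v, hu, hv, rfl⟩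
    exact ⟨(HahnSeries.C c : Ls A) • u, (HahnSeries.C c : Ls A) • v,
      fun i => (Px A).mul_mem (C_mem_Px c) (hu i), fun i => (Px A).mul_mem (C_mem_Px c) (hv i),
      by rw [csmul, smul_add, mulVec_smul, mulVec_smul]⟩

theorem mem_lat {S S' : Matrix (Fin N) (Fin N) (Ls A)} {m : Fin N → Ls A} :
    m ∈ Lat S S' ↔ ∃ u v : Fin N → Ls A, (∀ i, u i ∈ Px A) ∧ (∀ i, v i ∈ Px A) ∧
      m = S *ᵥ u + S' *ᵥ v := Iff.rfl

theorem stab_lat (S S' : Matrix (Fin N) (Fin N) (Ls A)) : Stab (Px A) (Lat S S') := by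
  rintro w hw _ ⟨u, v, hu, hv, rfl⟩
  exact ⟨w • u, w • v, fun i => (Px A).mul_mem hw (hu i), fun i => (Px A).mul_mem hw (hv i),
    by rw [smul_add, mulVec_smul, mulVec_smul]⟩

theorem single_mem (j i : Fin N) : (Pi.single j 1 : Fin N → Ls A) i ∈ Px A := by
  rw [Pi.single_apply]
  split_ifs
  · exact (Px A).one_mem
  · exact (Px A).zero_mem

theorem col_lat_left (S S' : Matrix (Fin N) (Fin N) (Ls A)) : Col (Lat S S') S := fun j =>
  ⟨Pi.single j 1, 0, single_mem j, fun _ => (Px A).zero_mem, by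
    rw [mulVec_zero, add_zero, mulVec_single_one]; rfl⟩

theorem col_lat_right (S S' : Matrix (Fin N) (Fin N) (Ls A)) : Col (Lat S S') S' := fun j =>
  ⟨0, Pi.single j 1, fun _ => (Px A).zero_mem, single_mem j, by
    rw [mulVec_zero, zero_add, mulVec_single_one]; rfl⟩

theorem lat_le {S S' : Matrix (Fin N) (Fin N) (Ls A)} {M : Submodule A (Fin N → Ls A)}
    (hM : Stab (Px A) M) (h : Col M S) (h' : Col M S') : Lat S S' ≤ M := by
  rintro _ ⟨u, v, hu, hv, rfl⟩
  exact M.add_mem (h.mulVec hM hu) (h'.mulVec hM hv)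

theorem lat_map (a S S' : Matrix (Fin N) (Fin N) (Ls A)) :
    (Lat S S').map (act a) = Lat (a * S) (a * S') := by
  ext m
  constructor
  · rintro ⟨_, ⟨u, v, hu, hv, rfl⟩, rfl⟩
    exact ⟨u, v, hu, hv, by rw [act_apply, mulVec_add, mulVec_mulVec, mulVec_mulVec]⟩
  · rintro ⟨u, v, hu, hv, rfl⟩
    exact ⟨_, ⟨u, v, hu, hv, rfl⟩, by rw [act_apply, mulVec_add, mulVec_mulVec, mulVec_mulVec]⟩

end

end Vale.Agent.P286EN
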