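import Vale.Agent.P286EN.Lat

/-!
# Lattices without cohomology; the universal lattice `U X Y`
-/

set_option linter.all false

namespace Vale.Agent.P286EN

open Matrix Vale.Agent.P286 Vale.Agent.P286E

noncomputable section

attribute [-instance] HahnSeries.powerSeriesAlgebra

variable {A B : Type} [CommRing A] [CommRing B] {N : ℕ}

/-- The lattice `M` has no cohomology: `A((t))^N = M ⊕ A[[t]]^N`. -/
def Cpl (M : Submodule A (Fin N → Ls A)) : Prop := IsCompl M (LinearMap.ker (pol N A))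

section
variable {S S' : Matrix (Fin N) (Fin N) (Ls A)} {M M' : Submodule A (Fin N → Ls A)}

theorem Cpl.eq_of_le (h : Cpl M) (h' : Cpl M') (hle : M ≤ M') : M = M' :=
  eq_of_le_of_inf_le_of_le_sup hle (h'.inf_eq_bot.le.trans bot_le) (le_top.trans h.sup_eq_top.ge)

theorem Cpl.kill (h : Cpl M) {W : Matrix (Fin N) (Fin N) (Ls A)} (hW : Col M W) (h0 : OrdM 0 W) :
    W = 0 := hW.eq_zero h.disjoint h0

theorem Cpl.exists (h : Cpl M) (v : Fin N → Ls A) : ∃ m ∈ M, ∀ i, Ord 0 ((v - m) i) := by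
  have h1 : v ∈ M ⊔ LinearMap.ker (pol N A) := h.sup_eq_top ▸ Submodule.mem_top
  obtain ⟨m, hm, z, hz, rfl⟩ := Submodule.mem_sup.1 h1
  exact ⟨m, hm, by rw [add_sub_cancel_left]; exact pol_eq_zero.1 hz⟩

theorem cpl_of (h1 : ∀ m ∈ M, (∀ i, Ord 0 (m i)) → m = 0)
    (h2 : ∀ v : Fin N → Ls A, ∃ m ∈ M, ∀ i, Ord 0 ((v - m) i)) : Cpl M :=
  ⟨Submodule.disjoint_def.2 fun m hm h => h1 m hm (pol_eq_zero.1 h),
    codisjoint_iff.2 (eq_top_iff.2 fun v _ => by
      obtain ⟨m, hm, h⟩ := h2 v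
      exact Submodule.mem_sup.2 ⟨m, hm, v - m, pol_eq_zero.2 h, add_sub_cancel _ _⟩)⟩

theorem Cpl.exists_lead (h : Cpl M) {n : ℤ} (hn : n < 0) : ∃ S, Col M S ∧ Lead n S 1 := by
  choose m hm h0 using fun j => h.exists fun i =>
    (tp A n • (1 : Matrix (Fin N) (Fin N) (Ls A))) i j
  have h1 : Lead n (tp A n • (1 : Matrix (Fin N) (Fin N) (Ls A))) 1 :=
    (Lead.smul (Ord.tp n) (HahnSeries.coeff_single_same _ _) lead_one).cast (add_zero n) rfl
  refine ⟨of fun i j => m j i, hm, ?_⟩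
  have h2 := h1.sub_ord (W := tp A n • 1 - of fun i j => m j i) fun i j => (h0 j i).mono (by omega)
  rwa [sub_sub_cancel] at h2

/-- A lattice without cohomology has a basis whose polar parts are the standard vectors. -/
theorem Cpl.basis (h : Cpl M) : ∃ v : ℕ × Fin N → Fin N → Ls A,
    pol N A ∘ₗ lin v = 1 ∧ LinearMap.range (lin v) = M := by
  choose v hv h0 using fun p => h.exists (std N A p)
  have h1 : pol N A ∘ₗ lin v = 1 := qm_ext fun p => by
    have h2 := pol_eq_zero.2 (h0 p)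
    rw [map_sub, sub_eq_zero, pol_std] at h2
    rw [LinearMap.comp_apply, lin_single, ← h2]
    rfl
  refine ⟨v, h1, Cpl.eq_of_le (cpl_of ?_ fun w => ?_) h (range_lin_le.2 hv)⟩
  · rintro _ ⟨z, rfl⟩ hz
    have h3 : z = 0 := (LinearMap.congr_fun h1 z).symm.trans (pol_eq_zero.2 hz)
    rw [h3, map_zero]
  · refine ⟨lin v (pol N A w), ⟨_, rfl⟩, pol_eq_zero.1 ?_⟩
    rw [map_sub, sub_eq_zero]
    exact (LinearMap.congr_fun h1 _).symm

theorem adm_of_pol {v : ℕ × Fin N → Fin N → Ls A} (h : pol N A ∘ₗ lin v = 1) : Adm v :=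
  ⟨⟨∅, fun x i _ => by rw [h, LinearMap.sub_apply, sub_self]; rfl⟩, 0, pol N A, h, fun _ hw => pol_eq_zero.2 hw⟩

theorem Cpl.adm (h : Cpl M) : ∃ v, Adm v ∧ LinearMap.range (lin v) = M :=
  h.basis.imp fun _ hv => ⟨adm_of_pol hv.1, hv.2⟩

theorem cpl_of_pol {v : ℕ × Fin N → Fin N → Ls A} (h : pol N A ∘ₗ lin v = 1) :
    Cpl (LinearMap.range (lin v)) := by
  refine cpl_of ?_ fun w => ⟨lin v (pol N A w), ⟨_, rfl⟩, pol_eq_zero.1 ?_⟩
  · rintro _ ⟨z, rfl⟩ hz
    have h3 : z = 0 := (LinearMap.congr_fun h z).symm.trans (pol_eq_zero.2 hz)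
    rw [h3, map_zero]
  · rw [map_sub, sub_eq_zero]
    exact (LinearMap.congr_fun h _).symm

theorem Cpl.map (h : Cpl M) {a b : Matrix (Fin N) (Fin N) (Ls A)} (ha : IntM a) (hb : IntM b)
    (hab : a * b = 1) : Cpl (M.map (act a)) := by
  have hba : b * a = 1 := mul_eq_one_comm.1 hab
  refine cpl_of ?_ fun v => ?_
  · rintro _ ⟨m, hm, rfl⟩ h0
    have h1 := hb.mulVec h0
    rw [act_apply, mulVec_mulVec, hba, one_mulVec] at h1
    rw [Submodule.disjoint_def.1 h.disjoint m hm (pol_eq_zero.2 h1), map_zero]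
  · obtain ⟨m, hm, h0⟩ := h.exists (b *ᵥ v)
    have h1 := ha.mulVec h0
    rw [mulVec_sub, mulVec_mulVec, hab, one_mulVec] at h1
    exact ⟨_, ⟨m, hm, rfl⟩, h1⟩

theorem lat_free (hS : Lead (-1) S 1) (hS' : Lead (-2) S' 1) {u v : Fin N → Ls A}
    (hu : ∀ i, u i ∈ Px A) (hv : ∀ i, v i ∈ Px A) (h : ∀ i, Ord 0 ((S *ᵥ u + S' *ᵥ v) i)) :
    u = 0 ∧ v = 0 := by
  obtain ⟨h1, h2⟩ := sep hS hS' (by norm_num) hu hv h
  exact ⟨funext fun i => px_eq_zero (hu i) (h1 i),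
    funext fun i => px_eq_zero (hv i) ((h2 i).mono (by norm_num))⟩

theorem lat_freeM (hS : Lead (-1) S 1) (hS' : Lead (-2) S' 1)
    {P Q : Matrix (Fin N) (Fin N) (Ls A)} (hP : Ent (Px A) P) (hQ : Ent (Px A) Q)
    (h : S * P + S' * Q = 0) : P = 0 ∧ Q = 0 := by
  have key := fun j => lat_free hS hS' (fun i => hP i j) (fun i => hQ i j) fun i =>
    (congrArg (Ord 0) (congrFun (congrFun h i) j)).mpr (Ord.zero 0)
  exact ⟨Matrix.ext fun i j => congrFun (key j).1 i, Matrix.ext fun i j => congrFun (key j).2 i⟩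

theorem cpl_lat (hS : Lead (-1) S 1) (hS' : Lead (-2) S' 1) : Cpl (Lat S S') := by
  refine cpl_of ?_ fun v => ?_
  · rintro _ ⟨u, v, hu, hv, rfl⟩ h
    obtain ⟨rfl, rfl⟩ := lat_free hS hS' hu hv h
    rw [mulVec_zero, mulVec_zero, add_zero]
  have step : ∀ {a : ℤ} {W : Matrix (Fin N) (Fin N) (Ls A)}, Lead a W 1 → Col (Lat S S') W →
      ∀ (l : ℕ) (w : Fin N → Ls A), (∀ i, Ord (a + -(2 * (l : ℤ))) (w i)) →
      ∃ m ∈ Lat S S', ∀ i, Ord (a + -(2 * (l : ℤ)) + 1) ((w - m) i) := by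
    intro a W hW hc l w hw
    have h1 : ∀ i, Ord (-(2 * (l : ℤ))) (HahnSeries.single (-(2 * (l : ℤ)))
      ((w i).coeff (a + -(2 * (l : ℤ)))) : Ls A) := fun i => Ord.single _ _
    refine ⟨_, hc.mulVec (stab_lat S S') fun i =>
      ⟨_, evx_monomial l ((w i).coeff (a + -(2 * (l : ℤ))))⟩,
      fun i => ord_succ ((hw i).sub (hW.ord.mulVec h1 i)) ?_⟩
    rw [Pi.sub_apply, HahnSeries.coeff_sub, hW.coeff_mulVec h1, HahnSeries.coeff_single_same,
      sub_self]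
  have key : ∀ (k : ℕ) (w : Fin N → Ls A), (∀ i, Ord (-(k : ℤ)) (w i)) →
      ∃ m ∈ Lat S S', ∀ i, Ord 0 ((w - m) i) := by
    intro k
    induction k with
    | zero => exact fun w hw => ⟨0, Submodule.zero_mem _, by rw [sub_zero]; exact hw⟩
    | succ k ih =>
      intro w hw
      have h1 : ∃ m ∈ Lat S S', ∀ i, Ord (-(k : ℤ)) ((w - m) i) := by
        rcases Nat.even_or_odd' k with ⟨l, rfl | rfl⟩
        · obtain ⟨m, hm, h⟩ := step hS (col_lat_left S S') l w fun i => (hw i).mono (by omega)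
          exact ⟨m, hm, fun i => (h i).mono (by omega)⟩
        · obtain ⟨m, hm, h⟩ := step hS' (col_lat_right S S') l w fun i => (hw i).mono (by omega)
          exact ⟨m, hm, fun i => (h i).mono (by omega)⟩
      obtain ⟨m, hm, h⟩ := h1
      obtain ⟨m', hm', h'⟩ := ih _ h
      exact ⟨m + m', Submodule.add_mem _ hm hm', by rw [← sub_sub]; exact h'⟩
  choose a ha using fun i => exists_ord (v i)
  obtain ⟨c, hc⟩ := (Set.finite_range a).bddBelow
  exact key (-c).toNat v fun i => (ha i).mono (by have : c ≤ a i := hc ⟨i, rfl⟩; omega)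

end

/-! ### Functions on the affine curve -/

variable [Algebra ℂ A] [Algebra ℂ B] (E : Ell)

/-- The function `y`. -/
def ys (A : Type) [CommRing A] [Algebra ℂ A] : Ls A := lm (algebraMap ℂ A) E.y

/-- A complex constant. -/
def cc (A : Type) [CommRing A] [Algebra ℂ A] (c : ℂ) : Ls A := HahnSeries.C (algebraMap ℂ A c)

theorem cc_mem (c : ℂ) : cc A c ∈ Px A := C_mem_Px _

theorem cm_csmul (c : ℂ) (X : Matrix (Fin N) (Fin N) A) : cm (c • X) = cc A c • cm X := by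
  rw [← algebraMap_smul A c X, cm_smul, cc]

theorem ys_sq : ys E A * ys E A = xs A ^ 3 + cc A E.a * xs A + cc A E.b := by
  have h := congrArg (lm (algebraMap ℂ A)) E.eqn
  rw [map_pow, map_add, map_add, map_pow, lm_smul, lm_smul, lm_xs, map_one, ← C_mul, ← C_mul,
    mul_one, pow_two] at h
  exact h

theorem ord_y : Ord (-3) E.y := by
  have h0 : E.y ≠ 0 := fun h => by
    have h1 := E.lead
    rw [h] at h1
    exact zero_ne_one h1
  have h1 : Ord E.y.order E.y := fun _ hk => HahnSeries.coeff_eq_zero_of_lt_order hk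
  refine h1.mono (not_lt.1 fun h => ?_)
  have h2 : Ord (-6) (ys E ℂ * ys E ℂ) := by
    rw [ys_sq, xs_pow]
    exact ((Ord.single _ _).add (((Ord.C _).mul' ord_xs).mono (by norm_num))).add
      ((Ord.C _).mono (by norm_num))
  have h3 := h2 (E.y.order + E.y.order) (by omega)
  change (E.y * E.y).coeff _ = 0 at h3
  rw [coeff_mul_lead h1 h1, mul_self_eq_zero] at h3
  exact h0 (HahnSeries.coeff_order_eq_zero.1 h3)

theorem ord_ys : Ord (-3) (ys E A) := (ord_y E).lm _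

theorem ys_coeff : (ys E A).coeff (-3) = 1 := by rw [ys, lm_coeff, E.lead, map_one]

theorem lm_ys (f : A →ₐ[ℂ] B) : lm (f : A →+* B) (ys E A) = ys E B := by
  rw [ys, ys, lm_lm, AlgHom.comp_algebraMap]

theorem ys_sq_mem : ys E A * ys E A ∈ Px A := by
  rw [ys_sq]
  exact (Px A).add_mem ((Px A).add_mem ((Px A).pow_mem xs_mem_Px 3)
    ((Px A).mul_mem (cc_mem _) xs_mem_Px)) (cc_mem _)

theorem reg_iff {w : Ls A} : E.Reg w ↔ ∃ p ∈ Px A, ∃ q ∈ Px A, w = p + q * ys E A :=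
  ⟨fun ⟨p, q, h⟩ => ⟨_, ⟨p, rfl⟩, _, ⟨q, rfl⟩, h⟩,
    fun ⟨_, ⟨p, hp⟩, _, ⟨q, hq⟩, h⟩ => ⟨p, q, by rw [h, ← hp, ← hq]; rfl⟩⟩

/-- The ring `O(E_A - o) = A[x] + A[x] y`. -/
def Rg (A : Type) [CommRing A] [Algebra ℂ A] : Subring (Ls A) where
  carrier := {w | E.Reg w}
  mul_mem' hu hw := by
    obtain ⟨p, hp, q, hq, rfl⟩ := (reg_iff E).1 hu
    obtain ⟨p', hp', q', hq', rfl⟩ := (reg_iff E).1 hw
    exact (reg_iff E).2 ⟨p * p' + q * q' * (ys E A * ys E A), (Px A).add_mem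
      ((Px A).mul_mem hp hp') ((Px A).mul_mem ((Px A).mul_mem hq hq') (ys_sq_mem E)),
      p * q' + q * p', (Px A).add_mem ((Px A).mul_mem hp hq') ((Px A).mul_mem hq hp'), by ring⟩
  one_mem' := (reg_iff E).2 ⟨1, (Px A).one_mem, 0, (Px A).zero_mem, by ring⟩
  add_mem' hu hw := by
    obtain ⟨p, hp, q, hq, rfl⟩ := (reg_iff E).1 hu
    obtain ⟨p', hp', q', hq', rfl⟩ := (reg_iff E).1 hw
    exact (reg_iff E).2 ⟨p + p', (Px A).add_mem hp hp', q + q', (Px A).add_mem hq hq', by ring⟩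
  zero_mem' := (reg_iff E).2 ⟨0, (Px A).zero_mem, 0, (Px A).zero_mem, by ring⟩
  neg_mem' hu := by
    obtain ⟨p, hp, q, hq, rfl⟩ := (reg_iff E).1 hu
    exact (reg_iff E).2 ⟨-p, (Px A).neg_mem hp, -q, (Px A).neg_mem hq, by ring⟩

theorem mem_Rg {w : Ls A} : w ∈ Rg E A ↔ E.Reg w := Iff.rfl

theorem Px_le_Rg : Px A ≤ Rg E A := fun p hp => (reg_iff E).2 ⟨p, hp, 0, (Px A).zero_mem, by ring⟩

theorem ys_mem_Rg : ys E A ∈ Rg E A :=
  (reg_iff E).2 ⟨0, (Px A).zero_mem, 1, (Px A).one_mem, by ring⟩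

theorem Stab.px {E : Ell} {M : Submodule A (Fin N → Ls A)} (h : Stab (Rg E A) M) :
    Stab (Px A) M := fun w hw => h w (Px_le_Rg E hw)

theorem stab_Rg {M : Submodule A (Fin N → Ls A)} (h : Stab (Px A) M)
    (hy : ∀ m ∈ M, ys E A • m ∈ M) : Stab (Rg E A) M := fun w hw m hm => by
  obtain ⟨p, hp, q, hq, rfl⟩ := (reg_iff E).1 hw
  rw [add_smul, mul_smul]
  exact M.add_mem (h p hp m hm) (h q hq _ (hy m hm))

/-! ### The universal lattice -/

/-- The second generator `(y + Y) ρ⁻¹`. -/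
def sig (X Y : Matrix (Fin N) (Fin N) A) : Matrix (Fin N) (Fin N) (Ls A) :=
  (ys E A • 1 + cm Y) * rhoI X

/-- The lattice `{ρ p(x) + (y + Y) ρ⁻¹ q(x)}`. -/
def U (X Y : Matrix (Fin N) (Fin N) A) : Submodule A (Fin N → Ls A) := Lat (rho X) (sig E X Y)

/-- A matrix point of the affine curve. -/
structure MPt (X Y : Matrix (Fin N) (Fin N) A) : Prop where
  comm : X * Y = Y * X
  eqn : Y * Y = X ^ 3 + E.a • X + E.b • 1

theorem lead_yY (Y : Matrix (Fin N) (Fin N) A) : Lead (-3) (ys E A • 1 + cm Y) 1 :=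
  (Lead.smul (ord_ys E) (ys_coeff E) lead_one).add_ord ((lead_cm Y).ord.mono (by norm_num))

theorem lead_sig (X Y : Matrix (Fin N) (Fin N) A) : Lead (-2) (sig E X Y) 1 :=
  ((lead_yY E Y).mul (lead_rhoI X)).cast rfl (Matrix.one_mul _)

theorem cpl_U (X Y : Matrix (Fin N) (Fin N) A) : Cpl (U E X Y) :=
  cpl_lat (lead_rho X) (lead_sig E X Y)

theorem sig_map (f : A →ₐ[ℂ] B) (X Y : Matrix (Fin N) (Fin N) A) :
    (sig E X Y).map (lm (f : A →+* B)) = sig E (X.map f) (Y.map f) := by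
  rw [sig, sig, Matrix.map_mul, rhoI_map, Matrix.map_add _ (map_add _), map_smul_lm, lm_ys, cm_map,
    Matrix.map_one _ (map_zero _) (map_one _)]
  rfl

theorem sig_inter {X X' Y Y' H : Matrix (Fin N) (Fin N) A} (h : H * X = X' * H)
    (h' : H * Y = Y' * H) : cm H * sig E X Y = sig E X' Y' * cm H := by
  rw [sig, sig, Matrix.mul_assoc, ← rhoI_inter h, ← Matrix.mul_assoc, ← Matrix.mul_assoc, mul_add,
    add_mul _ (cm Y'), ← cm_mul, ← cm_mul, h', mul_smul_comm, smul_mul_assoc (ys E A), mul_one,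
    one_mul]

theorem ent_xX (X : Matrix (Fin N) (Fin N) A) : Ent (Px A) (xs A • 1 - cm X) :=
  (ent_one.smul xs_mem_Px).sub (ent_cm X)

variable {E}

theorem MPt.map {X Y : Matrix (Fin N) (Fin N) A} (h : MPt E X Y) (f : A →ₐ[ℂ] B) :
    MPt E (X.map f) (Y.map f) := by
  have h1 := congrArg f.mapMatrix h.comm
  have h2 := congrArg f.mapMatrix h.eqn
  rw [map_mul, map_mul] at h1
  rw [map_mul, map_add, map_add, map_pow, map_smul, map_smul, map_one] at h2
  exact ⟨h1, h2⟩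

theorem y_rho {X Y : Matrix (Fin N) (Fin N) A} (h : X * Y = Y * X) :
    ys E A • rho X = sig E X Y * (xs A • 1 - cm X) - rho X * cm Y := by
  rw [sig, ← rho_mul_rho, Matrix.mul_assoc, ← Matrix.mul_assoc (rhoI X), rhoI_mul_rho, one_mul,
    add_mul, rho_inter h.symm, smul_mul_assoc, one_mul, add_sub_cancel_right]

theorem MPt.y_mul {X Y : Matrix (Fin N) (Fin N) A} (h : MPt E X Y) :
    (ys E A • 1 - cm Y) * (ys E A • 1 + cm Y) = (xs A • 1 - cm X) *
      (xs A ^ 2 • 1 + xs A • cm X + cm (X * X + E.a • 1)) := by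
  have h1 : (ys E A • 1 - cm Y) * (ys E A • 1 + cm Y) = (ys E A * ys E A) • 1 - cm Y * cm Y := by
    simp only [mul_add, sub_mul, smul_mul_assoc, mul_smul_comm, one_mul, mul_one]
    module
  rw [h1, ys_sq, ← cm_mul, h.eqn, pow_three X]
  simp only [cm_add, cm_mul, cm_csmul, cm_one, mul_add, sub_mul, smul_mul_assoc, mul_smul_comm,
    one_mul, mul_one, mul_assoc]
  module

theorem y_sig {X Y : Matrix (Fin N) (Fin N) A} (h : MPt E X Y) :
    ys E A • sig E X Y = rho X * (xs A ^ 2 • 1 + xs A • cm X + cm (X * X + E.a • 1)) +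
      sig E X Y * cm Y := by
  have h1 : (xs A ^ 2 • 1 + xs A • cm X + cm (X * X + E.a • 1)) * rhoI X =
      rhoI X * (xs A ^ 2 • 1 + xs A • cm X + cm (X * X + E.a • 1)) := by
    have h2 : (X * X + E.a • 1) * X = X * (X * X + E.a • 1) := by
      rw [add_mul, mul_add, mul_assoc, smul_mul_assoc, mul_smul_comm, one_mul, mul_one]
    rw [add_mul, add_mul, mul_add, mul_add, rhoI_inter h2, smul_mul_assoc, smul_mul_assoc,
      rhoI_inter rfl, mul_smul_comm, mul_smul_comm, one_mul, mul_one]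
  have h3 := congrArg (· * rhoI X) h.y_mul
  beta_reduce at h3
  rw [Matrix.mul_assoc, Matrix.mul_assoc, h1, ← rho_mul_rho, Matrix.mul_assoc,
    ← Matrix.mul_assoc (rho X) (rhoI X), rho_mul_rhoI, one_mul] at h3
  rw [← h3, ← sig_inter E h.comm.symm rfl, ← sig, sub_mul, sub_add_cancel, smul_mul_assoc, one_mul]

theorem stab_U {X Y : Matrix (Fin N) (Fin N) A} (h : MPt E X Y) : Stab (Rg E A) (U E X Y) := by
  have hs := stab_lat (rho X) (sig E X Y)
  have h1 := col_lat_left (rho X) (sig E X Y)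
  have h2 := col_lat_right (rho X) (sig E X Y)
  refine stab_Rg E hs ?_
  rintro _ ⟨u, v, hu, hv, rfl⟩
  rw [smul_add, ← smul_mulVec, ← smul_mulVec, y_rho h.comm, y_sig h]
  exact Submodule.add_mem _ (((h2.mul hs (ent_xX X)).sub (h1.mul hs (ent_cm Y))).mulVec hs hu)
    (((h1.mul hs (((ent_one.smul ((Px A).pow_mem xs_mem_Px 2)).add
      ((ent_cm X).smul xs_mem_Px)).add (ent_cm _))).add (h2.mul hs (ent_cm Y))).mulVec hs hv)

theorem lm_mem_Px (f : A →+* B) {w : Ls A} (hw : w ∈ Px A) : lm f w ∈ Px B := by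
  obtain ⟨p, rfl⟩ := hw
  exact ⟨_, (lm_evx f p).symm⟩

theorem lm_mem_U (f : A →ₐ[ℂ] B) {X Y : Matrix (Fin N) (Fin N) A} {m : Fin N → Ls A}
    (hm : m ∈ U E X Y) : lm (f : A →+* B) ∘ m ∈ U E (X.map f) (Y.map f) := by
  obtain ⟨u, v, hu, hv, rfl⟩ := hm
  refine ⟨_, _, fun i => lm_mem_Px (f : A →+* B) (hu i), fun i => lm_mem_Px (f : A →+* B) (hv i), ?_⟩
  rw [← rho_map, ← sig_map]
  refine Eq.trans ?_ (congrArg₂ (· + ·) (lm_mulVec _ _ u) (lm_mulVec _ _ v))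
  exact funext fun i => map_add (lm (f : A →+* B)) _ _

theorem cm_mem_U {X X' Y Y' H : Matrix (Fin N) (Fin N) A} (h : H * X = X' * H)
    (h' : H * Y = Y' * H) {m : Fin N → Ls A} (hm : m ∈ U E X Y) : cm H *ᵥ m ∈ U E X' Y' := by
  obtain ⟨u, v, hu, hv, rfl⟩ := hm
  refine ⟨_, _, (ent_cm H).mulVec hu, (ent_cm H).mulVec hv, ?_⟩
  rw [mulVec_add, mulVec_mulVec, mulVec_mulVec, mulVec_mulVec, mulVec_mulVec, rho_inter h,
    sig_inter E h h']

end

end Vale.Agent.P286EN
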