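import Vale.Agent.P286EN.Grp
import Vale.Agent.P286EL.Tw
import Vale.Agent.P286EW.Tw1
import Vale.Agent.P286EF.Pl

/-!
# The sections of `V(o)` for a twisted universal lattice
-/

set_option linter.all false

namespace Vale.Agent.P286EN

open Matrix Vale.Agent.P286 Vale.Agent.P286E Vale.Agent.P286EL
open Vale.Agent.P286EB (sr sI ea da gv tw thM)
open Vale.Agent.P286ER (On)

noncomputable section

attribute [-instance] HahnSeries.powerSeriesAlgebra

variable {A : Type} [CommRing A] [Algebra ℂ A] {N : ℕ} {E : Ell} (e : Rt E)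

/-- The matrix `g(X)`. -/
def gm (X : Matrix (Fin N) (Fin N) A) : Matrix (Fin N) (Fin N) A :=
  X * X + ea e A • X + (ea e A ^ 2 + algebraMap ℂ A E.a) • 1

theorem f_fac (X : Matrix (Fin N) (Fin N) A) :
    X ^ 3 + E.a • X + E.b • 1 = (X - ea e A • 1) * gm e X := by
  have h : algebraMap ℂ A E.b = -(ea e A ^ 3 + algebraMap ℂ A E.a * ea e A) := by
    linear_combination P286EW.ea_rt (A := A) e
  rw [← algebraMap_smul A E.a, ← algebraMap_smul A E.b, h, gm, pow_three]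
  simp only [mul_add, sub_mul, smul_mul_assoc, mul_smul_comm, one_mul, mul_one]
  module

theorem gm_comm {X H : Matrix (Fin N) (Fin N) A} (h : H * X = X * H) :
    H * gm e X = gm e X * H := by
  simp only [gm, mul_add, add_mul, smul_mul_assoc, mul_smul_comm, one_mul, mul_one, h]
  rw [← mul_assoc, h, mul_assoc, h, mul_assoc]

theorem gm_mul_of {X H : Matrix (Fin N) (Fin N) A} {p : A} (h : X * H = p • H) :
    gm e X * H = gv e p • H := by
  simp only [gm, gv, add_mul, smul_mul_assoc, mul_smul_comm, one_mul, mul_assoc, h]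
  module

theorem cm_gm (X : Matrix (Fin N) (Fin N) A) : cm (gm e X) =
    cm X * cm X + cc A e.e • cm X + (cc A e.e ^ 2 + cc A E.a) • 1 := by
  rw [gm, cm_add, cm_add, cm_mul, cm_smul, cm_smul, cm_one, map_add, map_pow]
  rfl

/-- The sections `τ = (s ρ)⁻¹ (g(X) (x - e) + y Y)`. -/
def tau (X Y : Matrix (Fin N) (Fin N) A) : Matrix (Fin N) (Fin N) (Ls A) :=
  ji e A • (rhoI X * ((xs A - cc A e.e) • cm (gm e X) + ys E A • cm Y))

/-- The basis of the sections of `V(o)`. -/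
def bas (X Y π : Matrix (Fin N) (Fin N) A) : Matrix (Fin N) (Fin N) (Ls A) :=
  (1 - cm π) * rho X + cm π * tau e X Y

theorem rho_eq (X : Matrix (Fin N) (Fin N) A) : rho X = rhoI X * (xs A • 1 - cm X) := by
  rw [← rho_mul_rho, ← mul_assoc, rhoI_mul_rho, one_mul]

theorem sig_eq {X Y : Matrix (Fin N) (Fin N) A} (h : X * Y = Y * X) :
    sig E X Y = rhoI X * (ys E A • 1 + cm Y) := by
  rw [← rho_sig h, ← mul_assoc, rhoI_mul_rho, one_mul]

theorem ji_sq : ji e A * ji e A * (xs A - cc A e.e) = 1 := sI_sq _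

theorem ord_tau (X Y : Matrix (Fin N) (Fin N) A) : OrdM (-1) (tau e X Y) := by
  have h1 : Ord (-2) (xs A - cc A e.e) := ord_xs.sub ((Ord.C _).mono (by norm_num))
  have h2 : OrdM (-3) ((xs A - cc A e.e) • cm (gm e X) + ys E A • cm Y) :=
    ((OrdM.smul h1 (lead_cm _).ord).mono (by norm_num)).add (OrdM.smul (ord_ys E) (lead_cm _).ord)
  exact OrdM.smul (ord_sI _) ((lead_rhoI X).ord.mul h2)

theorem rho_tau (X Y : Matrix (Fin N) (Fin N) A) :
    (j1 e A • rho X) * tau e X Y = (xs A - cc A e.e) • cm (gm e X) + ys E A • cm Y := by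
  rw [tau, smul_mul_smul_comm, j1_ji, one_smul, ← mul_assoc, rho_mul_rhoI, one_mul]

variable {e} {X Y π Γ : Matrix (Fin N) (Fin N) A}

theorem j1_tau (h : MPt E X Y) :
    j1 e A • tau e X Y = rho X * cm (gm e X) + sig E X Y * cm Y := by
  have h1 := congrArg cm (h.eqn.trans (f_fac e X))
  rw [cm_mul, cm_mul, cm_sub, cm_smul, cm_one] at h1
  rw [tau, smul_smul, j1_ji, one_smul, rho_eq, sig_eq h.comm, mul_assoc, mul_assoc, ← mul_add]
  congr 1
  simp only [add_mul, sub_mul, smul_mul_assoc, one_mul, h1, cc_e]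
  module

theorem j2_tau (h : MPt E X Y) : j2 e A • tau e X Y = sig E X Y * cm (gm e X) +
    rho X * (((xs A + cc A e.e) • 1 + cm X) * cm Y) := by
  have h1 := congrArg cm (gm_comm e h.comm.symm)
  rw [cm_mul, cm_mul] at h1
  have h2 : j2 e A * ji e A * (xs A - cc A e.e) = ys E A := by
    rw [j2]
    linear_combination ys E A * ji_sq (A := A) e
  have h3 : j2 e A * ji e A * ys E A = gx e A := by
    rw [← j2_j2, j2]
    ring
  rw [tau, smul_smul, ← mul_smul_comm, smul_add, smul_smul, smul_smul, h2, h3, rho_eq,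
    sig_eq h.comm, mul_assoc, mul_assoc, ← mul_add, add_mul _ (cm Y), h1]
  congr 1
  simp only [cm_gm, gx, add_mul, sub_mul, mul_add, smul_mul_assoc, mul_smul_comm, one_mul, mul_one,
    mul_assoc]
  module

theorem col_tw {P W : Matrix (Fin N) (Fin N) (Ls A)} {M : Submodule A (Fin N → Ls A)} :
    Col (tw e P M) W ↔ Col M (W - P * W) ∧ Col M (j1 e A • (P * W)) ∧ Col M (j2 e A • (P * W)) :=
  ⟨fun h => ⟨fun j => (mem_tw.1 (h j)).1, fun j => (mem_tw.1 (h j)).2.1,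
    fun j => (mem_tw.1 (h j)).2.2⟩, fun h j => mem_tw.2 ⟨h.1 j, h.2.1 j, h.2.2 j⟩⟩

/-- A projector which commutes with `X` and `Y`. -/
structure Prc (X Y π : Matrix (Fin N) (Fin N) A) : Prop where
  sq : π * π = π
  cx : π * X = X * π
  cy : π * Y = Y * π

theorem Prc.sq' (h : Prc X Y π) : cm π * cm π = cm π := by rw [← cm_mul, h.sq]

theorem Prc.mem (h : Prc X Y π) : ∀ m ∈ U E X Y, cm π *ᵥ m ∈ U E X Y :=
  fun _ hm => cm_mem_U h.cx h.cy hm

theorem Prc.mul_bas (h : Prc X Y π) : cm π * bas e X Y π = cm π * tau e X Y := by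
  rw [bas, mul_add, ← mul_assoc, ← mul_assoc, mul_sub, h.sq', mul_one, sub_self, zero_mul, zero_add]

theorem col_bas (hp : MPt E X Y) (h : Prc X Y π) :
    Col (tw e (cm π) (U E X Y)) (bas e X Y π) := by
  have hs := stab_lat (rho X) (sig E X Y)
  have h1 := col_lat_left (rho X) (sig E X Y)
  have h2 := col_lat_right (rho X) (sig E X Y)
  rw [col_tw, h.mul_bas, ← mul_smul_comm, ← mul_smul_comm, j1_tau hp, j2_tau hp, bas,
    add_sub_cancel_right, sub_mul, one_mul]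
  exact ⟨h1.sub (h1.act h.mem), ((h1.mul hs (ent_cm _)).add (h2.mul hs (ent_cm _))).act h.mem,
    ((h2.mul hs (ent_cm _)).add (h1.mul hs (((ent_one.smul ((Px A).add_mem xs_mem_Px
      (cc_mem _))).add (ent_cm X)).mul (ent_cm Y)))).act h.mem⟩

theorem ord_bas : OrdM (-1) (bas e X Y π) :=
  ((lead_one.ord.sub (lead_cm π).ord).mul (lead_rho X).ord).add
    ((lead_cm π).ord.mul (ord_tau e X Y))

theorem ord_j1 : Ord (-1) (j1 e A) := ord_sr _

theorem ord_j2 : Ord (-2) (j2 e A) := (ord_ys E).mul' (ord_sI _)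

theorem tw_top (hp : MPt E X Y) (h : Prc X Y π) :
    tw e (cm π) (U E X Y) ⊔ On N A (-1) = ⊤ := by
  refine eq_top_iff.2 fun v _ => ?_
  obtain ⟨m, hm, h0⟩ := (cpl_U E X Y).exists v
  obtain ⟨m', hm', h1⟩ := (cpl_U E X Y).exists (ji e A • v)
  refine Submodule.mem_sup.2 ⟨_, add_mem (sub_mem_tw h.sq' h.mem hm)
    (IsJ.mem_tw (stab_U hp) h.sq' h.mem (Or.inl rfl) hm'),
    (v - m - cm π *ᵥ (v - m)) + j1 e A • (cm π *ᵥ (ji e A • v - m')), fun i => ?_, ?_⟩
  · exact (((h0 i).sub (IntM.mulVec (lead_cm π).ord h0 i)).mono (by norm_num)).add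
      (ord_j1.mul' (IntM.mulVec (lead_cm π).ord h1 i))
  · rw [mulVec_sub, mulVec_sub, mulVec_smul, smul_sub, smul_smul, j1_ji, one_smul]
    abel

/-- The columns of `bas` span the sections of `V(o)`. -/
theorem span_bas (hp : MPt E X Y) (h : Prc X Y π) (h1 : Γ * gm e X * π = π) (h2 : Γ * Y = Y * Γ)
    (h3 : gm e X * Γ * π = π) {W : Matrix (Fin N) (Fin N) (Ls A)}
    (hW : Col (tw e (cm π) (U E X Y)) W) (ho : OrdM (-1) W) : ∃ c, W = bas e X Y π * cm c := by
  obtain ⟨a0, a1, a2⟩ := col_tw.1 hW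
  have hc := cpl_U E X Y
  have hs := stab_lat (rho X) (sig E X Y)
  have k1 := col_lat_left (rho X) (sig E X Y)
  have k2 := col_lat_right (rho X) (sig E X Y)
  have o0 : OrdM (-1) (cm π * W) := (lead_cm π).ord.mul ho
  obtain ⟨c0, o1⟩ := lead_step (ho.sub o0) (lead_rho X)
  have e0 := sub_eq_zero.1 (hc.kill (a0.sub (k1.mul hs (ent_cm c0))) o1)
  have oa : OrdM (-2) (j1 e A • (cm π * W)) := OrdM.smul ord_j1 o0
  have ob : OrdM (-3) (j2 e A • (cm π * W)) := OrdM.smul ord_j2 o0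
  obtain ⟨c2, o2⟩ := lead_step oa (lead_sig E X Y)
  obtain ⟨c1, o3⟩ := lead_step o2 (lead_rho X)
  have e1 := hc.kill ((a1.sub (k2.mul hs (ent_cm c2))).sub (k1.mul hs (ent_cm c1))) o3
  obtain ⟨c4, o4⟩ := lead_step ob (lead_xs (lead_rho X))
  obtain ⟨c5, o5⟩ := lead_step o4 (lead_sig E X Y)
  obtain ⟨c3, o6⟩ := lead_step o5 (lead_rho X)
  have e2 := hc.kill (((a2.sub ((k1.smul hs xs_mem_Px).mul hs (ent_cm c4))).sub
    (k2.mul hs (ent_cm c5))).sub (k1.mul hs (ent_cm c3))) o6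
  rw [sub_sub, sub_eq_zero] at e1
  rw [sub_sub, sub_sub, sub_eq_zero] at e2
  have e3 : ys E A • j1 e A • (cm π * W) = (xs A - cc A e.e) • j2 e A • (cm π * W) := by
    rw [smul_smul, smul_smul, ← j1_j1, ← j1_j2 e]
    congr 1
    ring
  rw [e1, e2, smul_add, ← smul_mul_assoc, ← smul_mul_assoc, y_sig hp, y_rho hp.comm,
    ← sub_eq_zero] at e3
  have e4 : rho X * (xs A • xs A • cm (c2 - c4) + (xs A • cm (X * c2 - c3 + ea e A • c4) +
      cm ((X * X + E.a • 1) * c2 - Y * c1 + ea e A • c3))) + sig E X Y *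
      (xs A • cm (c1 - c5) + cm (Y * c2 - X * c1 + ea e A • c5)) = 0 := by
    rw [← e3]
    simp only [cm_sub, cm_add, cm_mul, cm_smul, cm_csmul, cm_one, cc_e, mul_sub, sub_mul, mul_add,
      add_mul, smul_mul_assoc, mul_smul_comm, mul_one, one_mul, mul_assoc]
    module
  obtain ⟨b2, b1, b0⟩ := quad_eq_zero (lat_freeM (lead_rho X) (lead_sig E X Y) (ent_quad _ _ _)
    (ent_lin _ _) e4).1
  have e5 : Y * c1 = gm e X * c2 := by
    rw [← sub_eq_zero.1 b2] at b1
    have b3 : c3 = X * c2 + ea e A • c2 := by rw [← sub_eq_zero, ← neg_eq_zero, ← b1]; abel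
    rw [b3, ← algebraMap_smul A E.a] at b0
    rw [← sub_eq_zero, ← neg_eq_zero, ← b0, gm]
    simp only [add_mul, smul_mul_assoc, one_mul, mul_assoc]
    module
  have e6 : Y * (Γ * π * c1) = π * c2 := by
    rw [← mul_assoc, ← mul_assoc, ← h2, mul_assoc Γ, ← h.cy, mul_assoc, mul_assoc, e5,
      ← mul_assoc π, gm_comm e h.cx, ← mul_assoc, ← mul_assoc, h1]
  have e7 : gm e X * (Γ * π * c1) = π * c1 := by rw [← mul_assoc, ← mul_assoc, h3]
  have e8 : cm π * W = cm π * (tau e X Y * cm (Γ * π * c1)) := by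
    have e9 : j1 e A • (cm π * W) = j1 e A • (cm π * (tau e X Y * cm (Γ * π * c1))) := by
      rw [← mul_smul_comm _ (cm π) (_ * _), ← smul_mul_assoc _ (tau e X Y), j1_tau hp, add_mul,
        mul_assoc (rho X), mul_assoc (sig E X Y), ← cm_mul, ← cm_mul, e6, e7, cm_mul, cm_mul,
        ← mul_assoc (rho X), ← mul_assoc (sig E X Y), ← rho_inter h.cx, ← sig_inter E h.cx h.cy,
        mul_assoc (cm π), mul_assoc (cm π), ← mul_add, add_comm, ← e1, mul_smul_comm, mul_smul_comm,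
        ← mul_assoc (cm π) (cm π), h.sq', ← mul_assoc (cm π) (cm π), h.sq']
    have e10 := congrArg (ji e A • ·) e9
    simpa only [smul_smul, mul_comm (ji e A), j1_ji, one_smul] using e10
  refine ⟨(1 - π) * c0 + π * (Γ * π * c1), ?_⟩
  have t1 : cm π * tau e X Y = tau e X Y * cm π := by
    rw [tau, mul_smul_comm, smul_mul_assoc, ← mul_assoc, rhoI_inter h.cx, mul_assoc, mul_assoc,
      mul_add, add_mul, mul_smul_comm, mul_smul_comm, smul_mul_assoc, smul_mul_assoc, ← cm_mul,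
      ← cm_mul, ← cm_mul, ← cm_mul, gm_comm e h.cx, h.cy]
  have t2 : bas e X Y π * cm π = cm π * tau e X Y := by
    rw [bas, add_mul, mul_assoc, ← rho_inter h.cx, ← mul_assoc, sub_mul, one_mul, h.sq', sub_self,
      zero_mul, zero_add, mul_assoc, ← t1, ← mul_assoc, h.sq']
  have t3 : bas e X Y π * (1 - cm π) = (1 - cm π) * rho X := by
    rw [mul_sub, mul_one, t2, bas, add_sub_cancel_right]
  rw [cm_add, cm_mul, cm_mul π, cm_sub, cm_one, mul_add, ← mul_assoc, ← mul_assoc, t2, t3,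
    mul_assoc, mul_assoc, ← e8, ← e0, sub_mul, one_mul, mul_sub, ← mul_assoc, h.sq', sub_self,
    sub_zero, sub_add_cancel]

theorem span_bas' (j : Fin N) (hp : MPt E X Y) (h : Prc X Y π) (h1 : Γ * gm e X * π = π)
    (h2 : Γ * Y = Y * Γ) (h3 : gm e X * Γ * π = π) {m : Fin N → Ls A}
    (hm : m ∈ tw e (cm π) (U E X Y) ⊓ On N A (-1)) :
    ∃ c : Fin N → A, m = bas e X Y π *ᵥ (HahnSeries.C ∘ c) := by
  obtain ⟨c, hc⟩ := span_bas hp h h1 h2 h3 (W := of fun i _ => m i) (fun _ => hm.1)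
    fun i _ => hm.2 i
  exact ⟨fun i => c i j, funext fun i => congrFun (congrFun hc i) j⟩

/-- The coefficient of `tⁿ`. -/
def cf (A : Type) [CommRing A] (n : ℤ) : Ls A →ₗ[A] A where
  toFun w := w.coeff n
  map_add' _ _ := rfl
  map_smul' _ _ := rfl

/-- The properties of the lattice `tw π U(X, Y)`. -/
def Fam (e : Rt E) (F X Y π : Matrix (Fin N) (Fin N) A) (θ : Ls A) : Prop :=
  MPt E X Y ∧ π * π = π ∧ π * X = X * π ∧ π * Y = Y * π ∧ Stab (Rg E A) (tw e (cm π) (U E X Y)) ∧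
    Frm E F (tw e (cm π) (U E X Y)) ∧ ∃ (v : ℕ × Fin N → Fin N → Ls A) (u : Aˣ), Adm v ∧
      LinearMap.range (lin v) = tw e (cm π) (U E X Y) ∧ P286EB.Th v = (u : A) • θ

theorem fam_of (j : Fin N) {F : Matrix (Fin N) (Fin N) A} (hp : MPt E X Y) (h : Prc X Y π)
    (h1 : Γ * gm e X * π = π) (h2 : Γ * Y = Y * Γ) (h3 : gm e X * Γ * π = π)
    (hX : Xᵀ * F = F * X) (hY : Yᵀ * F = -(F * Y)) (hπ : πᵀ * F = F * π) {θ : Ls A} {u : A}
    (hu : IsUnit u) (hd : (bas e X Y π).det = u • θ) (α β : A)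
    (hl : α * θ.coeff 0 + β * θ.coeff (-2) = 1) : Fam e F X Y π θ := by
  obtain ⟨u, rfl⟩ := hu
  obtain ⟨v, hv, hr, ht⟩ := adm1 A N _ _ ((u⁻¹ : Aˣ) • (α • cf A 0 + β • cf A (-2))) 1 (tw_top hp h)
    (col_bas hp h) ord_bas (fun m hm => span_bas' j hp h h1 h2 h3 hm)
    (by
      rw [hd, map_smul]
      change (u : A) * (((u⁻¹ : Aˣ) : A) * (α * θ.coeff 0 + β * θ.coeff (-2))) = 1
      rw [hl, mul_one, Units.mul_inv])
    fun w hw => by
      change ((u⁻¹ : Aˣ) : A) * (α * w.coeff 0 + β * w.coeff (-2)) = 0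
      rw [hw 0 (by norm_num), hw (-2) (by norm_num), mul_zero, mul_zero, add_zero, mul_zero]
  exact ⟨hp, h.sq, h.cx, h.cy, stab_tw (stab_U hp), frm_tw (stab_U hp) h.sq' h.mem
    (by rw [cm_transpose, ← cm_mul, ← cm_mul, hπ]) (frm_U hp hX hY), v, u, hv, hr, ht.trans hd⟩

end

end Vale.Agent.P286EN
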