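import Vale.Agent.P286EN.Fam

/-!
# The lattices of the charts
-/

set_option linter.all false

namespace Vale.Agent.P286EN

open Matrix Vale.Agent.P286 Vale.Agent.P286E Vale.Agent.P286EL
open Vale.Agent.P286EB (sr sI ea da gv tw thM Rk1 Prj Pt Xm FM FAMM)
open Vale.Agent.P286ER (On)
open Vale.Agent.P286ET (Ix)

noncomputable section

attribute [-instance] HahnSeries.powerSeriesAlgebra

section ring
variable {R : Type} [CommRing R]

theorem det_two (ι : ℂ →+* R) (ξ : Fin 3 → R) (α γ : R) :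
    (α • (1 : Matrix (Fin 2) (Fin 2) R) + γ • pm ι ξ).det = α ^ 2 - γ ^ 2 * (ξ ⬝ᵥ ξ) := by
  have hI := iota_I ι
  rw [pm_eq]
  simp [det_fin_two, dotProduct, Fin.sum_univ_three]
  linear_combination (γ ^ 2 * ξ 1 ^ 2) * hI

theorem det_three (ι : ℂ →+* R) (ξ : Fin 3 → R) (α β γ : R) :
    (α • (1 : Matrix (Fin 3) (Fin 3) R) + β • vecMulVec ξ ξ + γ • rm ι ξ).det =
      (α + β * (ξ ⬝ᵥ ξ)) * (α ^ 2 - γ ^ 2 * (ξ ⬝ᵥ ξ)) := by
  have hI := iota_I ι
  rw [rm_eq]
  simp [det_fin_three, dotProduct, Fin.sum_univ_three, vecMulVec_apply]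
  linear_combination (γ ^ 2 * (ξ 0 ^ 2 + ξ 1 ^ 2 + ξ 2 ^ 2) *
    (α + β * (ξ 0 ^ 2 + ξ 1 ^ 2 + ξ 2 ^ 2))) * hI

theorem det_rk1 {π : Matrix (Fin 3) (Fin 3) R} (h : Rk1 π) (α β : R) :
    (α • (1 : Matrix (Fin 3) (Fin 3) R) + β • π).det = α ^ 2 * (α + β * trace π) := by
  simp [det_fin_three, trace_fin_three]
  linear_combination (α * β ^ 2) * (h 0 0 1 1 + h 0 0 2 2 + h 1 1 2 2) +
    β ^ 3 * (π 0 0 * h 1 1 2 2 - π 0 1 * h 1 0 2 2 + π 0 2 * h 1 0 2 1)

theorem rk1_sq {N : ℕ} {π : Matrix (Fin N) (Fin N) R} (h : Rk1 π) : π * π = trace π • π := by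
  ext i l
  rw [Matrix.mul_apply, Matrix.smul_apply, trace, smul_eq_mul, Finset.sum_mul]
  exact Finset.sum_congr rfl fun j _ => by rw [h i j j l, mul_comm]; rfl

theorem rm_cube (ι : ℂ →+* R) (ξ : Fin 3 → R) :
    rm ι ξ * rm ι ξ * rm ι ξ = (ξ ⬝ᵥ ξ) • rm ι ξ := by
  rw [mul_assoc, rm_sq, mul_sub, mul_vecMulVec, rm_mulVec, cross_self, smul_zero, zero_vecMulVec,
    sub_zero, mul_smul_comm, mul_one]

theorem vec_of_ker (ι : ℂ →+* R) {ξ : Fin 3 → R} {π : Matrix (Fin 3) (Fin 3) R} (hs : πᵀ = π)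
    (ht : trace π = 1) (h : rm ι ξ * π = 0) : vecMulVec ξ ξ = (ξ ⬝ᵥ ξ) • π := by
  have hI := iota_I ι
  have s : ∀ i j, π j i = π i j := fun i j => congrFun (congrFun hs i) j
  have k : ∀ i j, (rm ι ξ * π) i j = 0 := fun i j => by rw [h]; rfl
  have h1 : π *ᵥ ξ = ξ := by
    have k01 := k 0 1; have k02 := k 0 2; have k10 := k 1 0; have k12 := k 1 2
    have k20 := k 2 0; have k21 := k 2 1
    rw [rm_eq] at k01 k02 k10 k12 k20 k21
    simp [Matrix.mul_apply, Fin.sum_univ_three] at k01 k02 k10 k12 k20 k21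
    rw [trace_fin_three] at ht
    ext a
    fin_cases a <;> simp [mulVec, dotProduct, Fin.sum_univ_three]
    · linear_combination (ξ 0) * ht - ι Complex.I * (k12 - k21) +
        (ξ 2 * π 0 2 - ξ 0 * π 2 2 + ξ 1 * π 0 1 - ξ 0 * π 1 1) * hI
    · linear_combination (ξ 1) * ht - ι Complex.I * (k20 - k02) +
        (ξ 0 * π 1 0 - ξ 1 * π 0 0 + ξ 2 * π 1 2 - ξ 1 * π 2 2) * hI
    · linear_combination (ξ 2) * ht - ι Complex.I * (k01 - k10) +
        (ξ 1 * π 2 1 - ξ 2 * π 1 1 + ξ 0 * π 2 0 - ξ 2 * π 0 0) * hI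
  have h2 : rm ι ξ * rm ι ξ * π = 0 := by rw [mul_assoc, h, mul_zero]
  rw [rm_sq, sub_mul, vecMulVec_mul, ← hs, vecMul_transpose, h1, hs, smul_mul_assoc, one_mul,
    sub_eq_zero] at h2
  exact h2.symm

end ring

variable {A : Type} [CommRing A] [Algebra ℂ A] {N : ℕ} {E : Ell} (e : Rt E)

theorem fv_fac (x : A) : fv E x = (x - ea e A) * gv e x := P286EW.fv_eq e x

theorem gv_ea : gv e (ea e A) = da e A := by
  rw [P286EW.gv_eq]
  ring

theorem di_mul : algebraMap ℂ A e.d⁻¹ * da e A = 1 := by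
  rw [da, ← map_mul, inv_mul_cancel₀ e.d_ne, map_one]

theorem C_coeff (a : A) (n : ℤ) (h : n ≠ 0) : (HahnSeries.C a : Ls A).coeff n = 0 :=
  HahnSeries.coeff_single_of_ne h

theorem C_coeff_zero (a : A) : (HahnSeries.C a : Ls A).coeff 0 = a := HahnSeries.coeff_single_same _ _

theorem xs_coeff_zero : (xs A).coeff 0 = 0 := HahnSeries.coeff_single_of_ne (by norm_num)

/-- The data of a point of the charts `a`, `n`. -/
structure PtA (E : Ell) (F : Matrix (Fin N) (Fin N) A) (x : A) (Y π : Matrix (Fin N) (Fin N) A) :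
    Prop where
  adj : πᵀ * F = F * π
  sq : π * π = π
  yp : Y * π = 0
  py : π * Y = 0
  skew : Yᵀ * F = -(F * Y)
  yy : Y * Y = fv E x • (1 - π)

variable {e} {F Y π : Matrix (Fin N) (Fin N) A} {x : A}

theorem PtA.xp (h : PtA E F x Y π) : (ea e A • π + x • (1 - π)) * π = ea e A • π := by
  rw [add_mul, smul_mul_assoc, smul_mul_assoc, sub_mul, one_mul, h.sq, sub_self, smul_zero, add_zero]

theorem PtA.xq (h : PtA E F x Y π) : (ea e A • π + x • (1 - π)) * (1 - π) = x • (1 - π) := by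
  rw [mul_sub, h.xp, mul_one, add_sub_cancel_left]

theorem PtA.prc (h : PtA E F x Y π) : Prc (ea e A • π + x • (1 - π)) Y π :=
  ⟨h.sq, by rw [h.xp, mul_add, mul_smul_comm, mul_smul_comm, mul_sub, mul_one, h.sq, sub_self,
    smul_zero, add_zero], by rw [h.py, h.yp]⟩

theorem PtA.mpt (h : PtA E F x Y π) : MPt E (ea e A • π + x • (1 - π)) Y := by
  refine ⟨by simp only [add_mul, mul_add, smul_mul_assoc, mul_smul_comm, sub_mul, mul_sub, h.yp,
    h.py, one_mul, mul_one], ?_⟩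
  have h1 : ea e A • π + x • (1 - π) - ea e A • 1 = (x - ea e A) • (1 - π) := by module
  have h2 : (1 - π) * (ea e A • π + x • (1 - π)) = (ea e A • π + x • (1 - π)) * (1 - π) := by
    rw [sub_mul, mul_sub, h.prc.cx, one_mul, mul_one]
  rw [f_fac e, h1, smul_mul_assoc, gm_comm e h2, gm_mul_of e h.xq, smul_smul, ← fv_fac, h.yy]

theorem PtA.bas_eq (h : PtA E F x Y π) : bas e (ea e A • π + x • (1 - π)) Y π =
    sr x • (1 - cm π) + (HahnSeries.C (da e A) : Ls A) • cm π := by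
  have h1 : (1 - π) * (ea e A • π + x • (1 - π)) = (ea e A • π + x • (1 - π)) * (1 - π) := by
    rw [sub_mul, mul_sub, h.prc.cx, one_mul, mul_one]
  have h2 := rho_inter h1
  rw [rho_mul_of h.xq, cm_sub, cm_one] at h2
  rw [bas, h2, tau, mul_smul_comm, ← mul_assoc, rhoI_inter h.prc.cx, rhoI_mul_of h.xp,
    smul_mul_assoc, mul_add, mul_smul_comm, mul_smul_comm, ← cm_mul, ← cm_mul, h.py, cm_zero,
    smul_zero, add_zero, gm_comm e h.prc.cx, gm_mul_of e h.xp, gv_ea, cm_smul, smul_smul, smul_smul,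
    smul_smul]
  have h3 : ji e A * sI (ea e A) * (xs A - cc A e.e) = 1 := ji_sq e
  have h4 : ji e A * sI (ea e A) * (xs A - cc A e.e) * HahnSeries.C (da e A) =
      HahnSeries.C (da e A) := by rw [h3, one_mul]
  rw [h4]

theorem PtA.gam (h : PtA E F x Y π) :
    algebraMap ℂ A e.d⁻¹ • 1 * gm e (ea e A • π + x • (1 - π)) * π = π := by
  rw [mul_assoc, gm_mul_of e h.xp, gv_ea, smul_mul_smul_comm, di_mul, one_mul, one_smul]

theorem PtA.gam' (h : PtA E F x Y π) :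
    gm e (ea e A • π + x • (1 - π)) * algebraMap ℂ A e.d⁻¹ • 1 * π = π := by
  rw [mul_smul_comm, mul_one, smul_mul_assoc, gm_mul_of e h.xp, gv_ea, smul_smul, di_mul, one_smul]

theorem PtA.fam (j : Fin N) (h : PtA E F x Y π) {u : A} (hu : IsUnit u)
    (hd : (sr x • (1 - cm π) + (HahnSeries.C (da e A) : Ls A) • cm π).det =
      u • (xs A - HahnSeries.C x)) :
    Fam e F (ea e A • π + x • (1 - π)) Y π (xs A - HahnSeries.C x) :=
  fam_of j h.mpt h.prc h.gam (by rw [smul_mul_assoc, mul_smul_comm, one_mul, mul_one]) h.gam'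
    (by simp only [transpose_add, transpose_smul, transpose_sub, transpose_one, add_mul, mul_add,
      smul_mul_assoc, mul_smul_comm, sub_mul, mul_sub, h.adj, one_mul, mul_one]) h.skew h.adj hu
    (h.bas_eq.symm ▸ hd) 0 1 (by
      rw [zero_mul, zero_add, one_mul, HahnSeries.coeff_sub, xs_coeff, C_coeff _ _ (by norm_num),
        sub_zero])

theorem cm_mulVec (H : Matrix (Fin N) (Fin N) A) (c : Fin N → A) :
    cm H *ᵥ (HahnSeries.C ∘ c) = HahnSeries.C ∘ (H *ᵥ c) :=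
  funext fun i => (RingHom.map_mulVec (HahnSeries.C : A →+* Ls A) H c i).symm

theorem PtA.h0 (j : Fin N) (h : PtA E F x Y π) (m : Fin N → Ls A) :
    m ∈ tw e (cm π) (U E (ea e A • π + x • (1 - π)) Y) ⊓ On N A 0 ↔
      ∃ c : Fin N → A, m = HahnSeries.C ∘ (π *ᵥ c) := by
  have hb : ∀ w : Fin N → Ls A, cm π *ᵥ (bas e (ea e A • π + x • (1 - π)) Y π *ᵥ w) =
      cm π *ᵥ ((HahnSeries.C (da e A) : Ls A) • w) := fun w => by
    rw [mulVec_mulVec, h.bas_eq (e := e), mul_add, mul_smul_comm, mul_smul_comm, mul_sub, (h.prc (e := e)).sq',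
      mul_one, sub_self, smul_zero, zero_add, smul_mulVec, mulVec_smul]
  constructor
  · rintro ⟨h1, h2⟩
    have h3 : m - cm π *ᵥ m = 0 := Submodule.disjoint_def.1 (cpl_U E _ Y).disjoint _ (mem_tw.1 h1).1
      (pol_eq_zero.2 fun i => (h2 i).sub (IntM.mulVec (lead_cm π).ord h2 i))
    obtain ⟨c, hc⟩ := span_bas' j h.mpt h.prc h.gam
      (by rw [smul_mul_assoc, mul_smul_comm, one_mul, mul_one]) h.gam'
      ⟨h1, fun i => (h2 i).mono (by norm_num)⟩
    refine ⟨da e A • c, ?_⟩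
    rw [sub_eq_zero.1 h3, hc, hb, ← cm_mulVec]
    exact congrArg _ (funext fun i => (map_mul (HahnSeries.C : A →+* Ls A) _ _).symm)
  · rintro ⟨c, rfl⟩
    refine ⟨?_, fun i => Ord.C _⟩
    have h1 := (col_bas (e := e) (h.mpt (e := e)) h.prc).mulVec (stab_tw (stab_lat _ _))
      (v := (HahnSeries.C (algebraMap ℂ A e.d⁻¹) : Ls A) • (HahnSeries.C ∘ c))
      fun i => (Px A).mul_mem (C_mem_Px _) (C_mem_Px _)
    have h2 := pi_mem_tw (h.prc (e := e)).sq' h1
    rwa [hb, smul_smul, ← map_mul, mul_comm, di_mul, map_one, one_smul, cm_mulVec] at h2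

theorem gm_b {γ : A} (hγ : γ * gv e x = 1) (h3 : Y * Y * Y = fv E x • Y) :
    gm e (ea e A • 1 + γ • (Y * Y)) = da e A • 1 + ((2 * ea e A + x) * γ) • (Y * Y) := by
  have k0 : γ * fv E x = x - ea e A := by rw [fv_fac e]; linear_combination (x - ea e A) * hγ
  have k1 : Y * (Y * Y) = fv E x • Y := by rw [← mul_assoc, h3]
  have k2 : Y * (Y * (Y * Y)) = fv E x • (Y * Y) := by rw [k1, mul_smul_comm]
  simp only [gm, P286EW.da_eq, add_mul, mul_add, smul_mul_assoc, mul_smul_comm, one_mul, mul_one,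
    mul_assoc, k2]
  match_scalars
  · ring
  · linear_combination γ * k0

/-- The chart `b`. -/
theorem fam_b (j : Fin N) {γ : A} (hγ : γ * gv e x = 1) (hY : Yᵀ * F = -(F * Y))
    (h3 : Y * Y * Y = fv E x • Y) {u : A} (hu : IsUnit u)
    (hd : (tau e (ea e A • 1 + γ • (Y * Y)) Y).det = u • thM e .b x) :
    Fam e F (ea e A • 1 + γ • (Y * Y)) Y 1 (thM e .b x) := by
  have k0 : γ * fv E x = x - ea e A := by rw [fv_fac e]; linear_combination (x - ea e A) * hγ
  have k1 : Y * (Y * Y) = fv E x • Y := by rw [← mul_assoc, h3]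
  have k2 : Y * (Y * (Y * Y)) = fv E x • (Y * Y) := by rw [k1, mul_smul_comm]
  have k3 := gm_b hγ h3
  have k4 := P286EW.gv_eq e x
  have k5 : (algebraMap ℂ A e.d⁻¹ • (1 - ((2 * ea e A + x) * γ * γ) • (Y * Y))) *
      gm e (ea e A • 1 + γ • (Y * Y)) = 1 := by
    have k6 := di_mul (A := A) e
    simp only [k3, sub_mul, mul_add, smul_mul_assoc, mul_smul_comm, one_mul, mul_one, mul_assoc, k2]
    match_scalars
    · linear_combination k6
    · linear_combination (algebraMap ℂ A e.d⁻¹ * (2 * ea e A + x) * γ) *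
        (-hγ + γ * k4 - (2 * ea e A + x) * γ * k0)
  refine fam_of j ⟨by simp only [add_mul, mul_add, smul_mul_assoc, mul_smul_comm, one_mul, mul_one,
    mul_assoc], ?_⟩ ⟨one_mul _, by rw [one_mul, mul_one], by rw [one_mul, mul_one]⟩
    (by rw [k5, one_mul]) ?_ (by rw [mul_eq_one_comm.1 k5, one_mul]) ?_ hY
    (by rw [transpose_one, one_mul, mul_one]) hu ?_ (algebraMap ℂ A e.d⁻¹)
    (algebraMap ℂ A e.d⁻¹ * ea e A) ?_
  · rw [f_fac e, k3, add_sub_cancel_left]
    simp only [mul_add, smul_mul_assoc, mul_smul_comm, mul_one, mul_assoc, k2]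
    match_scalars
    linear_combination -hγ + γ * k4 - (2 * ea e A + x) * γ * k0
  · simp only [sub_mul, mul_sub, smul_mul_assoc, mul_smul_comm, one_mul, mul_one, mul_assoc]
  · rw [transpose_add, transpose_smul, transpose_smul, transpose_one, transpose_mul, add_mul,
      mul_add, smul_mul_assoc, smul_mul_assoc, mul_smul_comm, mul_smul_comm, one_mul, mul_one,
      mul_assoc, hY, mul_neg, ← mul_assoc, hY, neg_mul, neg_neg, mul_assoc]
  · rw [bas, cm_one, sub_self, zero_mul, zero_add, one_mul, hd]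
  · rw [thM, C_mul, HahnSeries.coeff_sub, HahnSeries.coeff_sub, HahnSeries.coeff_smul,
      HahnSeries.coeff_smul, HahnSeries.coeff_sub, HahnSeries.coeff_sub, xs_coeff, xs_coeff_zero,
      C_coeff_zero, C_coeff_zero, C_coeff _ _ (by norm_num), C_coeff _ _ (by norm_num)]
    simp only [smul_eq_mul]
    linear_combination di_mul (A := A) e

end

end Vale.Agent.P286EN
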