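import Vale.Agent.P286EF.Ls

/-!
# The square root `ρ` of `x - X` for a constant matrix `X`
-/

set_option linter.all false

namespace Vale.Agent.P286EN

open Matrix Vale.Agent.P286 Vale.Agent.P286E

noncomputable section

variable {A B : Type} [CommRing A] [CommRing B] {N : ℕ}

/-- A constant matrix. -/
def cm (X : Matrix (Fin N) (Fin N) A) : Matrix (Fin N) (Fin N) (Ls A) := X.map HahnSeries.C

/-- `cm` as a ring homomorphism. -/
def cmH (N : ℕ) (A : Type) [CommRing A] :
    Matrix (Fin N) (Fin N) A →+* Matrix (Fin N) (Fin N) (Ls A) :=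
  (HahnSeries.C : A →+* Ls A).mapMatrix

theorem cm_eq (X : Matrix (Fin N) (Fin N) A) : cm X = cmH N A X := rfl

theorem cm_mul (X Y : Matrix (Fin N) (Fin N) A) : cm (X * Y) = cm X * cm Y := map_mul (cmH N A) X Y

theorem cm_add (X Y : Matrix (Fin N) (Fin N) A) : cm (X + Y) = cm X + cm Y := map_add (cmH N A) X Y

theorem cm_sub (X Y : Matrix (Fin N) (Fin N) A) : cm (X - Y) = cm X - cm Y := map_sub (cmH N A) X Y

theorem cm_neg (X : Matrix (Fin N) (Fin N) A) : cm (-X) = -cm X := map_neg (cmH N A) X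

theorem cm_one : cm (1 : Matrix (Fin N) (Fin N) A) = 1 := map_one (cmH N A)

theorem cm_zero : cm (0 : Matrix (Fin N) (Fin N) A) = 0 := map_zero (cmH N A)

theorem cm_transpose (X : Matrix (Fin N) (Fin N) A) : (cm X)ᵀ = cm Xᵀ := rfl

theorem cm_apply (X : Matrix (Fin N) (Fin N) A) (i j : Fin N) : cm X i j = HahnSeries.C (X i j) :=
  rfl

theorem cm_smul (c : A) (X : Matrix (Fin N) (Fin N) A) :
    cm (c • X) = (HahnSeries.C c : Ls A) • cm X := by
  ext1 i j
  rw [cm_apply, Matrix.smul_apply, Matrix.smul_apply, cm_apply, smul_eq_mul, smul_eq_mul, map_mul]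

theorem cst_eq [Algebra ℂ A] (m : Matrix (Fin N) (Fin N) ℂ) :
    cst A m = cm (m.map (algebraMap ℂ A)) := rfl

theorem cm_map (f : A →+* B) (X : Matrix (Fin N) (Fin N) A) :
    (cm X).map (lm f) = cm (X.map f) := by
  ext1 i j
  exact lm_C f _

/-- Doubling. -/
def two : ℕ →+ ℤ where
  toFun k := 2 * (k : ℤ)
  map_zero' := rfl
  map_add' a b := by push_cast; ring

theorem two_inj : Function.Injective two := fun a b h => by
  change 2 * (a : ℤ) = 2 * (b : ℤ) at h
  omega

theorem two_le (a b : ℕ) : two a ≤ two b ↔ a ≤ b := by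
  change 2 * (a : ℤ) ≤ 2 * (b : ℤ) ↔ a ≤ b
  omega

/-- The substitution `s = t²`. -/
def e2 (A : Type) [CommRing A] : PowerSeries A →+* Ls A :=
  (HahnSeries.embDomainRingHom two two_inj two_le).comp
    (RingEquiv.toRingHom HahnSeries.toPowerSeries.symm)

theorem e2_coeff_two (g : PowerSeries A) (k : ℕ) :
    (e2 A g).coeff (2 * (k : ℤ)) = PowerSeries.coeff k g :=
  HahnSeries.embDomain_coeff (a := k) (f := ⟨⟨two, two_inj⟩, two_le _ _⟩)
    (x := HahnSeries.toPowerSeries.symm g)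

theorem e2_coeff_ne (g : PowerSeries A) (n : ℤ) (h : ∀ k : ℕ, n ≠ 2 * (k : ℤ)) :
    (e2 A g).coeff n = 0 := by
  refine HahnSeries.embDomain_of_notMem_range ?_
  rintro ⟨k, hk⟩
  exact h k hk.symm

theorem e2_ext {u : PowerSeries A} {w : Ls A} (h1 : ∀ k : ℕ, w.coeff (2 * (k : ℤ)) =
    PowerSeries.coeff k u) (h2 : ∀ n : ℤ, (∀ k : ℕ, n ≠ 2 * (k : ℤ)) → w.coeff n = 0) :
    e2 A u = w := by
  ext n
  by_cases h : ∃ k : ℕ, n = 2 * (k : ℤ)
  · obtain ⟨k, rfl⟩ := h
    rw [e2_coeff_two, h1]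
  · have h' : ∀ k : ℕ, n ≠ 2 * (k : ℤ) := fun k hk => h ⟨k, hk⟩
    rw [e2_coeff_ne _ _ h', h2 n h']

theorem e2_monomial (k : ℕ) (a : A) :
    e2 A (PowerSeries.monomial k a) = HahnSeries.single (2 * (k : ℤ)) a := by
  refine e2_ext (fun l => ?_) fun n hn => HahnSeries.coeff_single_of_ne (hn k)
  rw [PowerSeries.coeff_monomial, HahnSeries.coeff_single]
  by_cases h : l = k
  · rw [if_pos h, if_pos (by rw [h])]
  · rw [if_neg h, if_neg (by omega)]

theorem lm_e2 (f : A →+* B) (g : PowerSeries A) :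
    lm f (e2 A g) = e2 B (PowerSeries.map f g) := by
  refine (e2_ext (fun l => ?_) fun n hn => ?_).symm
  · rw [lm_coeff, e2_coeff_two, PowerSeries.coeff_map]
  · rw [lm_coeff, e2_coeff_ne _ _ hn, map_zero]

/-- Power series with matrix coefficients are matrices of power series. -/
def px (N : ℕ) (A : Type) [CommRing A] :
    PowerSeries (Matrix (Fin N) (Fin N) A) →+* Matrix (Fin N) (Fin N) (PowerSeries A) where
  toFun G := of fun i j => PowerSeries.mk fun k => PowerSeries.coeff k G i j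
  map_zero' := by
    ext i j k
    simp
  map_add' G H := by
    ext i j k
    simp
  map_one' := by
    ext i j k
    by_cases h : i = j <;> by_cases hk : k = 0 <;>
      simp [PowerSeries.coeff_one, Matrix.one_apply, h, hk]
  map_mul' G H := by
    ext i j k
    simp only [of_apply, PowerSeries.coeff_mk, PowerSeries.coeff_mul, Matrix.mul_apply, map_sum,
      Matrix.sum_apply]
    exact Finset.sum_comm

variable [Algebra ℂ A] [Algebra ℂ B]

/-- The substitution `s ↦ X s`. -/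
def ev (X : Matrix (Fin N) (Fin N) A) : PowerSeries ℂ →+* PowerSeries (Matrix (Fin N) (Fin N) A) where
  toFun g := PowerSeries.mk fun k => PowerSeries.coeff k g • X ^ k
  map_zero' := by
    ext1 k
    simp
  map_add' g h := by
    ext1 k
    simp [add_smul]
  map_one' := by
    ext1 k
    by_cases hk : k = 0 <;> simp [PowerSeries.coeff_one, hk]
  map_mul' g h := by
    ext1 k
    simp only [PowerSeries.coeff_mk, PowerSeries.coeff_mul, Finset.sum_smul]
    refine Finset.sum_congr rfl fun p hp => ?_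
    rw [smul_mul_smul_comm, ← pow_add, Finset.HasAntidiagonal.mem_antidiagonal.1 hp]

/-- The substitution `s ↦ X t²`. -/
def Ps (X : Matrix (Fin N) (Fin N) A) : PowerSeries ℂ →+* Matrix (Fin N) (Fin N) (Ls A) :=
  (e2 A).mapMatrix.comp ((px N A).comp (ev X))

theorem Ps_apply (X : Matrix (Fin N) (Fin N) A) (g : PowerSeries ℂ) (i j : Fin N) :
    Ps X g i j = e2 A (PowerSeries.mk fun k => PowerSeries.coeff k g • (X ^ k) i j) := by
  change e2 A (PowerSeries.mk fun k => PowerSeries.coeff k (ev X g) i j) = _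
  congr 2
  funext k
  change PowerSeries.coeff k (PowerSeries.mk fun k => PowerSeries.coeff k g • X ^ k) i j = _
  rw [PowerSeries.coeff_mk, Matrix.smul_apply]

theorem Ps_coeff_two (X : Matrix (Fin N) (Fin N) A) (g : PowerSeries ℂ) (i j : Fin N) (k : ℕ) :
    (Ps X g i j).coeff (2 * (k : ℤ)) = PowerSeries.coeff k g • (X ^ k) i j := by
  rw [Ps_apply, e2_coeff_two, PowerSeries.coeff_mk]

theorem Ps_coeff_ne (X : Matrix (Fin N) (Fin N) A) (g : PowerSeries ℂ) (i j : Fin N) (n : ℤ)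
    (h : ∀ k : ℕ, n ≠ 2 * (k : ℤ)) : (Ps X g i j).coeff n = 0 := by
  rw [Ps_apply, e2_coeff_ne _ _ h]

theorem Ps_X (X : Matrix (Fin N) (Fin N) A) :
    Ps X PowerSeries.X = (HahnSeries.single 2 1 : Ls A) • cm X := by
  ext1 i j
  rw [Ps_apply, Matrix.smul_apply, cm_apply, smul_eq_mul, HahnSeries.C_apply,
    HahnSeries.single_mul_single, add_zero, one_mul]
  refine Eq.trans (congrArg (e2 A) ?_) (e2_monomial 1 (X i j))
  ext k
  rw [PowerSeries.coeff_mk, PowerSeries.coeff_X, PowerSeries.coeff_monomial]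
  split_ifs with h
  · rw [h, pow_one, one_smul]
  · rw [zero_smul]

theorem Ps_inter {X X' H : Matrix (Fin N) (Fin N) A} (h : H * X = X' * H) (g : PowerSeries ℂ) :
    cm H * Ps X g = Ps X' g * cm H := by
  have hp : ∀ k : ℕ, H * X ^ k = X' ^ k * H := fun k => SemiconjBy.pow_right h k
  have e1 : ∀ H : Matrix (Fin N) (Fin N) A,
      cm H = (e2 A).mapMatrix (px N A (PowerSeries.C H)) := by
    intro H
    ext1 i j
    refine Eq.trans ?_ (congrArg (e2 A) (?_ : PowerSeries.monomial 0 (H i j) = _))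
    · rw [e2_monomial]
      rfl
    · ext k
      change _ = PowerSeries.coeff k (PowerSeries.mk fun k => PowerSeries.coeff k
        (PowerSeries.C H) i j)
      rw [PowerSeries.coeff_mk, PowerSeries.coeff_C, PowerSeries.coeff_monomial]
      split_ifs <;> rfl
  have e2' : PowerSeries.C H * ev X g = ev X' g * PowerSeries.C H := by
    ext1 k
    rw [PowerSeries.coeff_C_mul, PowerSeries.coeff_mul_C]
    change H * PowerSeries.coeff k (PowerSeries.mk fun k => PowerSeries.coeff k g • X ^ k) =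
      PowerSeries.coeff k (PowerSeries.mk fun k => PowerSeries.coeff k g • X' ^ k) * H
    rw [PowerSeries.coeff_mk, PowerSeries.coeff_mk, mul_smul_comm, smul_mul_assoc, hp]
  rw [e1 H]
  change (e2 A).mapMatrix _ * (e2 A).mapMatrix (px N A (ev X g)) =
    (e2 A).mapMatrix (px N A (ev X' g)) * (e2 A).mapMatrix _
  rw [← map_mul, ← map_mul, ← map_mul, ← map_mul, e2']

theorem Ps_transpose (X : Matrix (Fin N) (Fin N) A) (g : PowerSeries ℂ) :
    (Ps X g)ᵀ = Ps Xᵀ g := by
  ext1 i j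
  rw [transpose_apply, Ps_apply, Ps_apply]
  congr 2
  funext k
  rw [← transpose_pow, transpose_apply]

theorem Ps_map (f : A →ₐ[ℂ] B) (X : Matrix (Fin N) (Fin N) A) (g : PowerSeries ℂ) :
    (Ps X g).map (lm (f : A →+* B)) = Ps (X.map f) g := by
  ext1 i j
  rw [map_apply, Ps_apply, Ps_apply, lm_e2]
  congr 1
  ext k
  rw [PowerSeries.coeff_map, PowerSeries.coeff_mk, PowerSeries.coeff_mk]
  have h : (X.map f) ^ k = (X ^ k).map f := (map_pow (f : A →+* B).mapMatrix X k).symm
  rw [h, map_apply]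
  exact map_smul f _ _

/-- The square root `t⁻¹ (1 - X t²)^(1/2)` of `x - X`. -/
def rho (X : Matrix (Fin N) (Fin N) A) : Matrix (Fin N) (Fin N) (Ls A) :=
  (HahnSeries.single (-1) 1 : Ls A) • Ps (-X) (PowerSeries.binomialSeries ℂ (2⁻¹ : ℂ))

/-- The inverse of `rho X`. -/
def rhoI (X : Matrix (Fin N) (Fin N) A) : Matrix (Fin N) (Fin N) (Ls A) :=
  (HahnSeries.single 1 1 : Ls A) • Ps (-X) (PowerSeries.binomialSeries ℂ (-2⁻¹ : ℂ))

theorem rho_mul_rho (X : Matrix (Fin N) (Fin N) A) : rho X * rho X = xs A • 1 - cm X := by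
  have h1 : (2⁻¹ : ℂ) + 2⁻¹ = ((1 : ℕ) : ℂ) := by norm_num
  rw [rho, smul_mul_smul_comm, ← map_mul (Ps (-X)), ← PowerSeries.binomialSeries_add, h1,
    PowerSeries.binomialSeries_nat, pow_one, map_add (Ps (-X)), map_one (Ps (-X)), Ps_X, HahnSeries.single_mul_single,
    smul_add, smul_smul, HahnSeries.single_mul_single, cm_neg, smul_neg, sub_eq_add_neg]
  have h2 : (HahnSeries.single (-1 + -1 + 2 : ℤ) ((1 : A) * 1 * 1) : Ls A) = 1 := by
    rw [mul_one, mul_one]
    rfl
  rw [h2, one_smul, mul_one]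
  rfl

theorem rho_mul_rhoI (X : Matrix (Fin N) (Fin N) A) : rho X * rhoI X = 1 := by
  rw [rho, rhoI, smul_mul_smul_comm, ← map_mul (Ps (-X)), ← PowerSeries.binomialSeries_add,
    add_neg_cancel, PowerSeries.binomialSeries_zero, map_one (Ps (-X)), HahnSeries.single_mul_single, mul_one]
  exact one_smul _ _

theorem rhoI_mul_rho (X : Matrix (Fin N) (Fin N) A) : rhoI X * rho X = 1 :=
  mul_eq_one_comm.1 (rho_mul_rhoI X)

theorem rho_inter {X X' H : Matrix (Fin N) (Fin N) A} (h : H * X = X' * H) :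
    cm H * rho X = rho X' * cm H := by
  rw [rho, rho, mul_smul_comm, smul_mul_assoc, Ps_inter (by rw [mul_neg, neg_mul, h])]

theorem rhoI_inter {X X' H : Matrix (Fin N) (Fin N) A} (h : H * X = X' * H) :
    cm H * rhoI X = rhoI X' * cm H := by
  rw [rhoI, rhoI, mul_smul_comm, smul_mul_assoc, Ps_inter (by rw [mul_neg, neg_mul, h])]

theorem rho_transpose (X : Matrix (Fin N) (Fin N) A) : (rho X)ᵀ = rho Xᵀ := by
  rw [rho, rho, transpose_smul, Ps_transpose, transpose_neg]

theorem rhoI_transpose (X : Matrix (Fin N) (Fin N) A) : (rhoI X)ᵀ = rhoI Xᵀ := by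
  rw [rhoI, rhoI, transpose_smul, Ps_transpose, transpose_neg]

theorem map_smul_lm (f : A →+* B) (w : Ls A) (S : Matrix (Fin N) (Fin N) (Ls A)) :
    (w • S).map (lm f) = lm f w • S.map (lm f) := by
  ext1 i j
  exact map_mul (lm f) _ _

theorem rho_map (f : A →ₐ[ℂ] B) (X : Matrix (Fin N) (Fin N) A) :
    (rho X).map (lm (f : A →+* B)) = rho (X.map f) := by
  rw [rho, rho, map_smul_lm, Ps_map, lm_single, map_one, Matrix.map_neg _ (map_neg f)]

theorem rhoI_map (f : A →ₐ[ℂ] B) (X : Matrix (Fin N) (Fin N) A) :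
    (rhoI X).map (lm (f : A →+* B)) = rhoI (X.map f) := by
  rw [rhoI, rhoI, map_smul_lm, Ps_map, lm_single, map_one, Matrix.map_neg _ (map_neg f)]

theorem Ps_int (X : Matrix (Fin N) (Fin N) A) (g : PowerSeries ℂ) : IntM (Ps X g) :=
  fun i j k hk => Ps_coeff_ne X g i j k fun l => by omega

theorem Ps_coeff_zero (X : Matrix (Fin N) (Fin N) A) (r : ℂ) (i j : Fin N) :
    (Ps X (PowerSeries.binomialSeries ℂ r) i j).coeff 0 = (1 : Matrix (Fin N) (Fin N) A) i j := by
  have h := Ps_coeff_two X (PowerSeries.binomialSeries ℂ r) i j 0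
  rw [PowerSeries.binomialSeries_coeff, Ring.choose_zero_right, one_smul, one_smul, pow_zero] at h
  exact h

/-- The matrix `S` is `tⁿ (c + O(t))`. -/
def Lead {m l : Type} (n : ℤ) (S : Matrix m l (Ls A)) (c : Matrix m l A) : Prop :=
  (∀ i j, Ord n (S i j)) ∧ ∀ i j, (S i j).coeff n = c i j

theorem lead_rho (X : Matrix (Fin N) (Fin N) A) : Lead (-1) (rho X) 1 :=
  ⟨fun i j => (ord_tp_mul (n := -1) (m := 0)).2 (Ps_int (-X) (PowerSeries.binomialSeries ℂ _) i j),
    fun i j => (coeff_tp_mul (-1) (-1) _).trans (Ps_coeff_zero _ _ i j)⟩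

theorem lead_rhoI (X : Matrix (Fin N) (Fin N) A) : Lead 1 (rhoI X) 1 :=
  ⟨fun i j => (ord_tp_mul (n := 1) (m := 0)).2 (Ps_int (-X) (PowerSeries.binomialSeries ℂ _) i j),
    fun i j => (coeff_tp_mul 1 1 _).trans (Ps_coeff_zero _ _ i j)⟩

end

end Vale.Agent.P286EN
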